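import Vale.Agent.P262.Balance

/-!
# Balancing with per-coordinate variance bounds
-/

set_option linter.unusedSectionVars false

open Finset
open scoped RealInnerProductSpace

namespace Vale.Agent.P262

section BTA

variable {ι κ : Type*} [Fintype ι] [DecidableEq ι] [Fintype κ] [DecidableEq κ]

/-- augmented vectors -/
noncomputable def aug (w : ι → κ → ℝ) (i : ι) : EuclideanSpace ℝ (ι ⊕ κ) :=
  WithLp.toLp 2 (Sum.elim (fun j => if j = i then 1 / √2 else 0) (fun c => w i c / √2))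

/-- test vectors -/
noncomputable def tst (ω : κ → ℝ) (c : κ) : EuclideanSpace ℝ (ι ⊕ κ) :=
  WithLp.toLp 2 (Sum.elim (fun _ => 0) (fun c' => if c' = c then √2 * √(ω c) else 0))

lemma inner_tst (ω : κ → ℝ) (c : κ) (y : EuclideanSpace ℝ (ι ⊕ κ)) :
    ⟪(tst ω c : EuclideanSpace ℝ (ι ⊕ κ)), y⟫ = √2 * √(ω c) * y (Sum.inr c) := by
  rw [PiLp.inner_apply, Fintype.sum_sum_type]
  simp [tst, mul_comm]

lemma norm_tst (ω : κ → ℝ) (hω : ∀ c, 0 ≤ ω c) (c : κ) :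
    ‖(tst ω c : EuclideanSpace ℝ (ι ⊕ κ))‖ ^ 2 = 2 * ω c := by
  rw [EuclideanSpace.norm_sq_eq, Fintype.sum_sum_type]
  simp [tst, mul_pow, Real.sq_sqrt (hω c)]

lemma norm_aug (w : ι → κ → ℝ) (i : ι) (hw : ∑ c, (w i c) ^ 2 ≤ 1) : ‖aug w i‖ ≤ 1 := by
  have h : ‖aug w i‖ ^ 2 ≤ 1 := by
    rw [EuclideanSpace.norm_sq_eq, Fintype.sum_sum_type]
    have h2 : (√2 : ℝ) ^ 2 = 2 := Real.sq_sqrt (by norm_num)
    have h3 : ∑ x : κ, ‖aug w i (Sum.inr x)‖ ^ 2 = (∑ c, (w i c) ^ 2) / 2 := by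
      rw [Finset.sum_div]
      refine Finset.sum_congr rfl fun c _ => ?_
      simp [aug, div_pow, h2]
    have h4 : ∑ x : ι, ‖aug w i (Sum.inl x)‖ ^ 2 = 1 / 2 := by
      simp only [aug, Sum.elim_inl, Real.norm_eq_abs, sq_abs]
      rw [Finset.sum_eq_single i]
      · simp [h2]
      · intro j _ hj; simp [hj]
      · simp
    rw [h3, h4]; linarith
  nlinarith [norm_nonneg (aug w i)]

theorem bta (w : ι → κ → ℝ) (hw : ∀ i, ∑ c, (w i c) ^ 2 ≤ 1) (ω : κ → ℝ) (hω : ∀ c, 0 ≤ ω c)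
    (A : Finset ι) (x : ι → ℝ) (hx : ∀ i ∈ A, |x i| ≤ 1) :
    ∃ ε : ι → ℝ, (∀ i, ε i = 1 ∨ ε i = -1) ∧
      ∑ c, ω c * (∑ i ∈ A, (ε i - x i) * w i c) ^ 2 ≤
        2 * ∑ c, ω c * min 1 (∑ i ∈ A, (w i c) ^ 2) := by
  obtain ⟨ε, hε, hle⟩ := balance (aug w) (fun i => norm_aug w i (hw i)) Finset.univ
    (tst ω : κ → EuclideanSpace ℝ (ι ⊕ κ)) A x hx
  refine ⟨ε, hε, ?_⟩
  have hs2 : (√2 : ℝ) ^ 2 = 2 := Real.sq_sqrt (by norm_num)
  have hs2' : (√2 : ℝ) ≠ 0 := by positivity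
  have hL : qf Finset.univ (tst ω : κ → EuclideanSpace ℝ (ι ⊕ κ))
      (∑ i ∈ A, (ε i - x i) • aug w i) = ∑ c, ω c * (∑ i ∈ A, (ε i - x i) * w i c) ^ 2 := by
    unfold qf
    refine Finset.sum_congr rfl fun c _ => ?_
    rw [inner_tst]
    have h1 : (∑ i ∈ A, (ε i - x i) • aug w i : EuclideanSpace ℝ (ι ⊕ κ)) (Sum.inr c)
        = (∑ i ∈ A, (ε i - x i) * w i c) / √2 := by
      rw [WithLp.ofLp_sum, Finset.sum_apply, Finset.sum_div]
      refine Finset.sum_congr rfl fun i _ => ?_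
      simp [aug, mul_div_assoc]
    rw [h1]
    have : √2 * √(ω c) * ((∑ i ∈ A, (ε i - x i) * w i c) / √2)
        = √(ω c) * (∑ i ∈ A, (ε i - x i) * w i c) := by
      field_simp
    rw [this, mul_pow, Real.sq_sqrt (hω c)]
  have hR : GG Finset.univ (tst ω : κ → EuclideanSpace ℝ (ι ⊕ κ)) (spn (aug w) A)
      ≤ 2 * ∑ c, ω c * min 1 (∑ i ∈ A, (w i c) ^ 2) := by
    unfold GG
    rw [Finset.mul_sum]
    refine Finset.sum_le_sum fun c _ => ?_
    set y := (spn (aug w) A).starProjection (tst ω c) with hy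
    have hyT : y ∈ spn (aug w) A := Submodule.starProjection_apply_mem _ _
    have hyy : ⟪(tst ω c : EuclideanSpace ℝ (ι ⊕ κ)), y⟫ = ‖y‖ ^ 2 := by
      rw [← inner_proj_of_mem _ _ y hyT, ← hy, real_inner_self_eq_norm_sq]
    have b1 : ‖y‖ ^ 2 ≤ 2 * ω c := by
      have h1 : ‖y‖ ^ 2 ≤ ‖(tst ω c : EuclideanSpace ℝ (ι ⊕ κ))‖ * ‖y‖ := by
        rw [← hyy]; exact real_inner_le_norm _ _
      have h2 := norm_tst (ι := ι) ω hω c
      rw [← h2]
      have h3 := norm_nonneg y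
      have h4 := norm_nonneg (tst ω c : EuclideanSpace ℝ (ι ⊕ κ))
      nlinarith [sq_nonneg (‖(tst ω c : EuclideanSpace ℝ (ι ⊕ κ))‖ - ‖y‖)]
    have b2 : ‖y‖ ^ 2 ≤ 2 * (ω c * ∑ i ∈ A, (w i c) ^ 2) := by
      obtain ⟨e, he⟩ : ∃ e : ι → ℝ, ∑ i ∈ A, e i • aug w i = y := by
        have := hyT
        rw [spn] at this
        exact (Submodule.mem_span_image_finset_iff_exists_fun' ℝ).mp this
      have hcoord : ∀ j : ι, y (Sum.inl j) = if j ∈ A then e j / √2 else 0 := by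
        intro j
        rw [← he, WithLp.ofLp_sum, Finset.sum_apply]
        simp only [aug, PiLp.smul_apply, Sum.elim_inl, smul_eq_mul, mul_ite, mul_zero]
        rw [Finset.sum_ite_eq]
        simp [div_eq_mul_inv]
      have hinr : y (Sum.inr c) = (∑ i ∈ A, e i * w i c) / √2 := by
        rw [← he, WithLp.ofLp_sum, Finset.sum_apply, Finset.sum_div]
        refine Finset.sum_congr rfl fun i _ => ?_
        simp [aug, mul_div_assoc]
      have hny : (∑ i ∈ A, (e i) ^ 2) / 2 ≤ ‖y‖ ^ 2 := by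
        rw [EuclideanSpace.norm_sq_eq, Fintype.sum_sum_type]
        have h1 : ∑ x : ι, ‖y (Sum.inl x)‖ ^ 2 = (∑ i ∈ A, (e i) ^ 2) / 2 := by
          rw [← Finset.sum_filter_add_sum_filter_not Finset.univ (fun j => j ∈ A)]
          rw [Finset.sum_eq_zero (s := Finset.univ.filter (fun j => ¬ j ∈ A)), add_zero,
            Finset.sum_div]
          · have : Finset.univ.filter (fun j => j ∈ A) = A := by ext; simp
            rw [this]
            refine Finset.sum_congr rfl fun j hj => ?_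
            rw [hcoord j, if_pos hj, Real.norm_eq_abs, sq_abs, div_pow, hs2]
          · intro j hj
            rw [hcoord j, if_neg (by simpa using hj)]
            simp
        rw [h1]
        have : 0 ≤ ∑ x : κ, ‖y (Sum.inr x)‖ ^ 2 := Finset.sum_nonneg fun _ _ => sq_nonneg _
        linarith
      have hiy : ‖y‖ ^ 2 = √(ω c) * ∑ i ∈ A, e i * w i c := by
        rw [← hyy, inner_tst, hinr]; field_simp
      have hcs : (∑ i ∈ A, e i * w i c) ^ 2 ≤ (∑ i ∈ A, (e i) ^ 2) * ∑ i ∈ A, (w i c) ^ 2 :=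
        Finset.sum_mul_sq_le_sq_mul_sq A e (fun i => w i c)
      have h4 : (‖y‖ ^ 2) ^ 2 ≤ ‖y‖ ^ 2 * (2 * (ω c * ∑ i ∈ A, (w i c) ^ 2)) := by
        have h5 : (‖y‖ ^ 2) ^ 2 = ω c * (∑ i ∈ A, e i * w i c) ^ 2 := by
          rw [hiy, mul_pow, Real.sq_sqrt (hω c)]
        rw [h5]
        have h6 : 0 ≤ ω c * ∑ i ∈ A, (w i c) ^ 2 :=
          mul_nonneg (hω c) (Finset.sum_nonneg fun _ _ => sq_nonneg _)
        calc ω c * (∑ i ∈ A, e i * w i c) ^ 2
            ≤ ω c * ((∑ i ∈ A, (e i) ^ 2) * ∑ i ∈ A, (w i c) ^ 2) :=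
              mul_le_mul_of_nonneg_left hcs (hω c)
          _ = (∑ i ∈ A, (e i) ^ 2) * (ω c * ∑ i ∈ A, (w i c) ^ 2) := by ring
          _ ≤ (2 * ‖y‖ ^ 2) * (ω c * ∑ i ∈ A, (w i c) ^ 2) :=
              mul_le_mul_of_nonneg_right (by linarith) h6
          _ = ‖y‖ ^ 2 * (2 * (ω c * ∑ i ∈ A, (w i c) ^ 2)) := by ring
      rcases eq_or_lt_of_le (sq_nonneg ‖y‖) with h0 | h0
      · rw [← h0]
        exact mul_nonneg (by norm_num) (mul_nonneg (hω c) (Finset.sum_nonneg fun _ _ => sq_nonneg _))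
      · have : ‖y‖ ^ 2 * ‖y‖ ^ 2 ≤ ‖y‖ ^ 2 * (2 * (ω c * ∑ i ∈ A, (w i c) ^ 2)) := by
          rw [← pow_two]; exact h4
        exact le_of_mul_le_mul_left this h0
    rcases le_total 1 (∑ i ∈ A, (w i c) ^ 2) with h | h
    · rw [min_eq_left h]; linarith
    · rw [min_eq_right h]; linarith
  rw [hL] at hle
  exact hle.trans hR

/-- several families of weights at once -/
theorem bta_groups {γ : Type*} [Fintype γ] (w : ι → κ → ℝ) (hw : ∀ i, ∑ c, (w i c) ^ 2 ≤ 1)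
    (ω : γ → κ → ℝ) (hω : ∀ g c, 0 ≤ ω g c)
    (A : Finset ι) (x : ι → ℝ) (hx : ∀ i ∈ A, |x i| ≤ 1) :
    ∃ ε : ι → ℝ, (∀ i, ε i = 1 ∨ ε i = -1) ∧ ∀ g,
      ∑ c, ω g c * (∑ i ∈ A, (ε i - x i) * w i c) ^ 2 ≤
        2 * Fintype.card γ * ∑ c, ω g c * min 1 (∑ i ∈ A, (w i c) ^ 2) := by
  classical
  set b : γ → ℝ := fun g => ∑ c, ω g c * min 1 (∑ i ∈ A, (w i c) ^ 2) with hb
  have hmin : ∀ c, 0 ≤ min 1 (∑ i ∈ A, (w i c) ^ 2) := fun c =>
    le_min (by norm_num) (Finset.sum_nonneg fun _ _ => sq_nonneg _)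
  have hb0 : ∀ g, 0 ≤ b g := fun g =>
    Finset.sum_nonneg fun c _ => mul_nonneg (hω g c) (hmin c)
  obtain ⟨ε, hε, hle⟩ := bta w hw (fun c => ∑ g, (b g)⁻¹ * ω g c)
    (fun c => Finset.sum_nonneg fun g _ => mul_nonneg (inv_nonneg.mpr (hb0 g)) (hω g c)) A x hx
  refine ⟨ε, hε, fun g => ?_⟩
  have hL : ∑ c, (∑ g, (b g)⁻¹ * ω g c) * (∑ i ∈ A, (ε i - x i) * w i c) ^ 2
      = ∑ g, (b g)⁻¹ * ∑ c, ω g c * (∑ i ∈ A, (ε i - x i) * w i c) ^ 2 := by
    simp only [Finset.sum_mul, Finset.mul_sum]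
    rw [Finset.sum_comm]
    refine Finset.sum_congr rfl fun g _ => Finset.sum_congr rfl fun c _ => ?_
    ring
  have hR : ∑ c, (∑ g, (b g)⁻¹ * ω g c) * min 1 (∑ i ∈ A, (w i c) ^ 2) = ∑ g, (b g)⁻¹ * b g := by
    simp only [hb, Finset.sum_mul, Finset.mul_sum]
    rw [Finset.sum_comm]
    refine Finset.sum_congr rfl fun g _ => Finset.sum_congr rfl fun c _ => ?_
    ring
  have hRle : ∑ g, (b g)⁻¹ * b g ≤ Fintype.card γ := by
    calc ∑ g, (b g)⁻¹ * b g ≤ ∑ _g : γ, (1 : ℝ) := by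
          refine Finset.sum_le_sum fun g _ => ?_
          rcases eq_or_ne (b g) 0 with h | h
          · rw [h]; simp
          · rw [inv_mul_cancel₀ h]
      _ = Fintype.card γ := by simp
  rw [hL, hR] at hle
  have hterm : (b g)⁻¹ * ∑ c, ω g c * (∑ i ∈ A, (ε i - x i) * w i c) ^ 2 ≤
      2 * Fintype.card γ := by
    have h1 : (b g)⁻¹ * ∑ c, ω g c * (∑ i ∈ A, (ε i - x i) * w i c) ^ 2 ≤
        ∑ g, (b g)⁻¹ * ∑ c, ω g c * (∑ i ∈ A, (ε i - x i) * w i c) ^ 2 :=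
      Finset.single_le_sum (f := fun g => (b g)⁻¹ * ∑ c, ω g c *
        (∑ i ∈ A, (ε i - x i) * w i c) ^ 2)
        (fun g _ => mul_nonneg (inv_nonneg.mpr (hb0 g))
          (Finset.sum_nonneg fun c _ => mul_nonneg (hω g c) (sq_nonneg _))) (Finset.mem_univ g)
    linarith
  rcases eq_or_lt_of_le (hb0 g) with h0 | h0
  · -- all coordinates vanish
    have hz : ∀ c, ω g c * min 1 (∑ i ∈ A, (w i c) ^ 2) = 0 := by
      intro c
      have := (Finset.sum_eq_zero_iff_of_nonneg (fun c _ => mul_nonneg (hω g c) (hmin c))).mp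
        h0.symm c (Finset.mem_univ c)
      exact this
    have : ∑ c, ω g c * (∑ i ∈ A, (ε i - x i) * w i c) ^ 2 = 0 := by
      refine Finset.sum_eq_zero fun c _ => ?_
      rcases mul_eq_zero.mp (hz c) with h | h
      · rw [h, zero_mul]
      · have h1 : ∑ i ∈ A, (w i c) ^ 2 = 0 := by
          rcases le_total 1 (∑ i ∈ A, (w i c) ^ 2) with h' | h'
          · rw [min_eq_left h'] at h; norm_num at h
          · rwa [min_eq_right h'] at h
        have h2 : ∀ i ∈ A, w i c = 0 := by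
          intro i hi
          have := (Finset.sum_eq_zero_iff_of_nonneg (fun i _ => sq_nonneg (w i c))).mp h1 i hi
          exact pow_eq_zero_iff (by norm_num) |>.mp this
        rw [Finset.sum_eq_zero (fun i hi => by rw [h2 i hi, mul_zero])]
        simp
    rw [this]
    exact mul_nonneg (by positivity) (hb0 g)
  · rw [inv_mul_le_iff₀ h0] at hterm
    linarith

end BTA

end Vale.Agent.P262
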