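import Mathlib

/-!
# A balancing lemma of Gram-Schmidt-walk type, proved by a potential argument
-/

set_option linter.unusedSectionVars false

open Finset
open scoped RealInnerProductSpace

namespace Vale.Agent.P262

section Pivot

variable {E : Type*} [NormedAddCommGroup E] [InnerProductSpace ℝ E] [FiniteDimensional ℝ E]
variable {ι κ : Type*} [DecidableEq ι]

/-- the quadratic form `u ↦ ∑ ⟨θ_k, u⟩²` -/
noncomputable def qf (K : Finset κ) (θ : κ → E) (u : E) : ℝ := ∑ k ∈ K, ⟪θ k, u⟫ ^ 2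

/-- the trace of the form against the projection onto `U` -/
noncomputable def GG (K : Finset κ) (θ : κ → E) (U : Submodule ℝ E) : ℝ :=
  ∑ k ∈ K, ‖U.starProjection (θ k)‖ ^ 2

lemma inner_proj_of_mem (T : Submodule ℝ E) (θ y : E) (hy : y ∈ T) :
    ⟪T.starProjection θ, y⟫ = ⟪θ, y⟫ := by
  rw [Submodule.inner_starProjection_left_eq_right,
    Submodule.starProjection_eq_self_iff.mpr hy]

lemma proj_ge (T : Submodule ℝ E) (θ y : E) (hy : y ∈ T) :
    2 * ⟪θ, y⟫ - ‖y‖ ^ 2 ≤ ‖T.starProjection θ‖ ^ 2 := by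
  have h1 := inner_proj_of_mem T θ y hy
  have h2 : 0 ≤ ‖T.starProjection θ - y‖ ^ 2 := sq_nonneg _
  rw [norm_sub_sq_real, h1] at h2
  linarith

lemma proj_add (U T : Submodule ℝ E) (hUT : U ≤ T) (θ b : E) (hb : b ∈ T)
    (hperp : ∀ u ∈ U, ⟪u, b⟫ = 0) (hb1 : ‖b‖ ≤ 1) :
    ‖U.starProjection θ‖ ^ 2 + ⟪θ, b⟫ ^ 2 ≤ ‖T.starProjection θ‖ ^ 2 := by
  set u := U.starProjection θ with hu
  have huU : u ∈ U := Submodule.starProjection_apply_mem U θ
  have huT : u ∈ T := hUT huU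
  have h1 : ⟪θ, u⟫ = ‖u‖ ^ 2 := by
    rw [← inner_proj_of_mem U θ u huU, ← hu, real_inner_self_eq_norm_sq]
  have h2 := proj_ge T θ (u + ⟪θ, b⟫ • b) (T.add_mem huT (T.smul_mem _ hb))
  have h3 : ⟪u, b⟫ = 0 := hperp u huU
  have h4 : ‖u + ⟪θ, b⟫ • b‖ ^ 2 = ‖u‖ ^ 2 + ⟪θ, b⟫ ^ 2 * ‖b‖ ^ 2 := by
    rw [norm_add_sq_real, inner_smul_right, h3, norm_smul, mul_pow]
    simp
  have h5 : ⟪θ, u + ⟪θ, b⟫ • b⟫ = ‖u‖ ^ 2 + ⟪θ, b⟫ ^ 2 := by
    rw [inner_add_right, inner_smul_right, h1]; ring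
  rw [h4, h5] at h2
  have h6 : ‖b‖ ^ 2 ≤ 1 := by
    have := norm_nonneg b
    nlinarith
  nlinarith [sq_nonneg ⟪θ, b⟫]

lemma GG_add (K : Finset κ) (θ : κ → E) (U T : Submodule ℝ E) (hUT : U ≤ T) (b : E) (hb : b ∈ T)
    (hperp : ∀ u ∈ U, ⟪u, b⟫ = 0) (hb1 : ‖b‖ ≤ 1) :
    GG K θ U + qf K θ b ≤ GG K θ T := by
  unfold GG qf
  rw [← Finset.sum_add_distrib]
  exact Finset.sum_le_sum fun k _ => proj_add U T hUT (θ k) b hb hperp hb1

lemma GG_mono (K : Finset κ) (θ : κ → E) {U T : Submodule ℝ E} (hUT : U ≤ T) :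
    GG K θ U ≤ GG K θ T := by
  have := GG_add K θ U T hUT 0 T.zero_mem (by simp) (by simp)
  have h0 : qf K θ (0 : E) = 0 := by simp [qf]
  linarith

lemma GG_nonneg (K : Finset κ) (θ : κ → E) (U : Submodule ℝ E) : 0 ≤ GG K θ U :=
  Finset.sum_nonneg fun _ _ => sq_nonneg _

lemma qf_add_smul (K : Finset κ) (θ : κ → E) (τ b : E) (δ : ℝ) :
    qf K θ (τ + δ • b) = qf K θ τ + δ * (2 * ∑ k ∈ K, ⟪θ k, τ⟫ * ⟪θ k, b⟫) + δ ^ 2 * qf K θ b := by
  unfold qf
  simp only [inner_add_right, inner_smul_right, Finset.mul_sum, ← Finset.sum_add_distrib]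
  refine Finset.sum_congr rfl fun k _ => ?_
  ring

/-- moving in a direction until a coordinate hits `±1` -/
lemma exists_hit (A : Finset ι) (x y : ι → ℝ) (hx : ∀ i ∈ A, |x i| ≤ 1) (p : ι) (hp : p ∈ A)
    (hy : y p ≠ 0) :
    ∃ δ : ℝ, 0 ≤ δ ∧ (∀ i ∈ A, |x i + δ * y i| ≤ 1) ∧ ∃ i ∈ A, |x i + δ * y i| = 1 := by
  classical
  set A' := A.filter (fun i => y i ≠ 0) with hA'
  have hne : A'.Nonempty := ⟨p, by simp [hA', hp, hy]⟩
  set f : ι → ℝ := fun i => (1 - SignType.sign (y i) * x i) / |y i| with hf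
  obtain ⟨i₀, hi₀, hmin⟩ := Finset.exists_min_image A' f hne
  have hi₀A : i₀ ∈ A := (Finset.mem_filter.mp hi₀).1
  have hy₀ : y i₀ ≠ 0 := (Finset.mem_filter.mp hi₀).2
  have hnn : ∀ i ∈ A', 0 ≤ f i := by
    intro i hi
    have hiA : i ∈ A := (Finset.mem_filter.mp hi).1
    have hyi : y i ≠ 0 := (Finset.mem_filter.mp hi).2
    refine div_nonneg ?_ (abs_nonneg _)
    have := abs_le.mp (hx i hiA)
    rcases lt_or_gt_of_ne hyi with h | h
    · rw [sign_neg h]; simp; linarith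
    · rw [sign_pos h]; simp; linarith
  have key : ∀ i ∈ A', ∀ δ : ℝ, 0 ≤ δ → δ ≤ f i → |x i + δ * y i| ≤ 1 := by
    intro i hi δ hδ0 hδ
    have hiA : i ∈ A := (Finset.mem_filter.mp hi).1
    have hyi : y i ≠ 0 := (Finset.mem_filter.mp hi).2
    have hxi := abs_le.mp (hx i hiA)
    rcases lt_or_gt_of_ne hyi with h | h
    · have h1 : f i = (1 + x i) / (-y i) := by
        simp only [hf]; rw [sign_neg h, abs_of_neg h]; simp
      rw [h1, le_div_iff₀ (by linarith)] at hδ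
      rw [abs_le]; constructor <;> nlinarith
    · have h1 : f i = (1 - x i) / y i := by
        simp only [hf]; rw [sign_pos h, abs_of_pos h]; simp
      rw [h1, le_div_iff₀ h] at hδ
      rw [abs_le]; constructor <;> nlinarith
  refine ⟨f i₀, hnn i₀ hi₀, ?_, i₀, hi₀A, ?_⟩
  · intro i hi
    by_cases hyi : y i = 0
    · rw [hyi]; simpa using hx i hi
    · have hi' : i ∈ A' := by simp [hA', hi, hyi]
      exact key i hi' _ (hnn i₀ hi₀) (hmin i hi')
  · rcases lt_or_gt_of_ne hy₀ with h | h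
    · have h1 : f i₀ = (1 + x i₀) / (-y i₀) := by
        simp only [hf]; rw [sign_neg h, abs_of_neg h]; simp
      have h2 : x i₀ + f i₀ * y i₀ = -1 := by
        rw [h1]; field_simp; ring
      rw [h2]; simp
    · have h1 : f i₀ = (1 - x i₀) / y i₀ := by
        simp only [hf]; rw [sign_pos h, abs_of_pos h]; simp
      have h2 : x i₀ + f i₀ * y i₀ = 1 := by
        rw [h1]; field_simp; ring
      rw [h2]; simp

/-- the span of the vectors indexed by `A` -/
noncomputable def spn (w : ι → E) (A : Finset ι) : Submodule ℝ E :=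
  Submodule.span ℝ (w '' (A : Set ι))

lemma mem_spn (w : ι → E) (A : Finset ι) {i : ι} (hi : i ∈ A) : w i ∈ spn w A :=
  Submodule.subset_span ⟨i, by simpa using hi, rfl⟩

lemma spn_mono (w : ι → E) {A B : Finset ι} (h : A ⊆ B) : spn w A ≤ spn w B := by
  apply Submodule.span_mono
  exact Set.image_mono (by exact_mod_cast h)

lemma spn_le (w : ι → E) {A : Finset ι} {T : Submodule ℝ E} (h : ∀ i ∈ A, w i ∈ T) :
    spn w A ≤ T := by
  apply Submodule.span_le.mpr
  rintro _ ⟨i, hi, rfl⟩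
  exact h i (by simpa using hi)

lemma sum_update (A : Finset ι) (i : ι) (hi : i ∉ A) (ε x : ι → ℝ) (c : ℝ) (w : ι → E) :
    ∑ j ∈ A, (Function.update ε i c j - x j) • w j = ∑ j ∈ A, (ε j - x j) • w j := by
  refine Finset.sum_congr rfl fun j hj => ?_
  rw [Function.update_of_ne (by rintro rfl; exact hi hj)]

theorem pivot (w : ι → E) (hw : ∀ i, ‖w i‖ ≤ 1) (K : Finset κ) (θ : κ → E) :
    ∀ n : ℕ, ∀ A : Finset ι, A.card = n → ∀ p ∈ A, ∀ x : ι → ℝ, (∀ i ∈ A, |x i| ≤ 1) →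
      ∀ T : Submodule ℝ E, (∀ i ∈ A, w i ∈ T) → ∀ τ : E,
      ∃ ε : ι → ℝ, (∀ i, ε i = 1 ∨ ε i = -1) ∧
        qf K θ (τ + ∑ i ∈ A, (ε i - x i) • w i) ≤
          qf K θ τ + GG K θ T - (x p) ^ 2 * (GG K θ T - GG K θ (spn w (A.erase p))) := by
  intro n
  induction n using Nat.strong_induction_on with
  | _ n IH =>
  intro A hAn p hp
  -- main step for smaller sets
  have main : ∀ A' : Finset ι, A'.card < n → ∀ x : ι → ℝ, (∀ i ∈ A', |x i| ≤ 1) → ∀ τ : E,
      ∃ ε : ι → ℝ, (∀ i, ε i = 1 ∨ ε i = -1) ∧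
        qf K θ (τ + ∑ i ∈ A', (ε i - x i) • w i) ≤ qf K θ τ + GG K θ (spn w A') := by
    intro A' hA' x hx τ
    rcases A'.eq_empty_or_nonempty with rfl | ⟨q, hq⟩
    · refine ⟨fun _ => 1, fun _ => Or.inl rfl, ?_⟩
      simp only [Finset.sum_empty, add_zero]
      linarith [GG_nonneg K θ (spn w (∅ : Finset ι))]
    · obtain ⟨ε, hε, hle⟩ := IH A'.card hA' A' rfl q hq x hx (spn w A')
        (fun i hi => mem_spn w A' hi) τ
      refine ⟨ε, hε, hle.trans ?_⟩
      have := GG_mono K θ (spn_mono w (Finset.erase_subset q A'))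
      nlinarith [sq_nonneg (x q)]
  -- boundary case
  have bdry : ∀ x : ι → ℝ, (∀ i ∈ A, |x i| ≤ 1) → (∃ i ∈ A, |x i| = 1) →
      ∀ T : Submodule ℝ E, (∀ i ∈ A, w i ∈ T) → ∀ τ : E,
      ∃ ε : ι → ℝ, (∀ i, ε i = 1 ∨ ε i = -1) ∧
        qf K θ (τ + ∑ i ∈ A, (ε i - x i) • w i) ≤
          qf K θ τ + GG K θ T - (x p) ^ 2 * (GG K θ T - GG K θ (spn w (A.erase p))) := by
    intro x hx ⟨i, hiA, hi1⟩ T hT τ
    by_cases hxp : |x p| = 1
    · obtain ⟨ε, hε, hle⟩ := main (A.erase p) (by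
        rw [← hAn]; exact Finset.card_erase_lt_of_mem hp) x
        (fun i hi => hx i (Finset.mem_of_mem_erase hi)) τ
      refine ⟨Function.update ε p (x p), ?_, ?_⟩
      · intro j
        by_cases hj : j = p
        · subst hj
          simp only [Function.update_self]
          rcases abs_eq (by norm_num : (0 : ℝ) ≤ 1) |>.mp hxp with h | h
          · exact Or.inl h
          · exact Or.inr h
        · rw [Function.update_of_ne hj]; exact hε j
      · rw [← Finset.add_sum_erase A _ hp]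
        simp only [Function.update_self, sub_self, zero_smul, zero_add]
        rw [sum_update _ _ (Finset.notMem_erase p A)]
        have hsq : (x p) ^ 2 = 1 := by rw [← sq_abs, hxp]; norm_num
        rw [hsq]
        linarith
    · have hip : i ≠ p := by rintro rfl; exact hxp hi1
      have hpA' : p ∈ A.erase i := Finset.mem_erase.mpr ⟨hip.symm, hp⟩
      obtain ⟨ε, hε, hle⟩ := IH (A.erase i).card (by
        rw [← hAn]; exact Finset.card_erase_lt_of_mem hiA) (A.erase i) rfl p hpA' x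
        (fun j hj => hx j (Finset.mem_of_mem_erase hj)) T
        (fun j hj => hT j (Finset.mem_of_mem_erase hj)) τ
      refine ⟨Function.update ε i (x i), ?_, ?_⟩
      · intro j
        by_cases hj : j = i
        · subst hj
          simp only [Function.update_self]
          rcases abs_eq (by norm_num : (0 : ℝ) ≤ 1) |>.mp hi1 with h | h
          · exact Or.inl h
          · exact Or.inr h
        · rw [Function.update_of_ne hj]; exact hε j
      · rw [← Finset.add_sum_erase A _ hiA]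
        simp only [Function.update_self, sub_self, zero_smul, zero_add]
        rw [sum_update _ _ (Finset.notMem_erase i A)]
        have hmono : GG K θ (spn w ((A.erase i).erase p)) ≤ GG K θ (spn w (A.erase p)) := by
          apply GG_mono
          apply spn_mono
          intro j hj
          simp only [Finset.mem_erase] at hj ⊢
          exact ⟨hj.1, hj.2.2⟩
        nlinarith [sq_nonneg (x p)]
  intro x hx T hT τ
  set U := spn w (A.erase p) with hU
  have hUT : U ≤ T := spn_le w fun i hi => hT i (Finset.mem_of_mem_erase hi)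
  set b : E := w p - U.starProjection (w p) with hb
  have hprojU : U.starProjection (w p) ∈ U := Submodule.starProjection_apply_mem U (w p)
  have hbT : b ∈ T := T.sub_mem (hT p hp) (hUT hprojU)
  have hbperp : ∀ u ∈ U, ⟪u, b⟫ = 0 := by
    intro u hu
    rw [real_inner_comm]
    exact Submodule.starProjection_inner_eq_zero (K := U) (w p) u hu
  have hb1 : ‖b‖ ≤ 1 := by
    have h1 : ‖w p‖ ^ 2 = ‖b‖ ^ 2 + ‖U.starProjection (w p)‖ ^ 2 := by
      have h2 : w p = b + U.starProjection (w p) := by rw [hb]; abel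
      have h3 : ⟪b, U.starProjection (w p)⟫ = 0 := by
        rw [real_inner_comm]; exact hbperp _ hprojU
      conv_lhs => rw [h2]
      rw [norm_add_sq_real, h3]; ring
    have h4 := hw p
    have h5 : ‖b‖ ^ 2 ≤ 1 ^ 2 := by nlinarith [norm_nonneg (w p), sq_nonneg ‖U.starProjection (w p)‖]
    by_contra hcon
    push Not at hcon
    nlinarith [norm_nonneg b]
  have hκ : qf K θ b ≤ GG K θ T - GG K θ U := by
    have := GG_add K θ U T hUT b hbT hbperp hb1
    linarith
  -- coefficients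
  obtain ⟨c, hc⟩ : ∃ c : ι → ℝ, ∑ i ∈ A.erase p, c i • w i = U.starProjection (w p) := by
    have := hprojU
    rw [hU, spn] at this
    exact (Submodule.mem_span_image_finset_iff_exists_fun' ℝ).mp this
  set y : ι → ℝ := fun i => if i = p then 1 else - c i with hy
  have hyb : ∑ i ∈ A, y i • w i = b := by
    rw [← Finset.add_sum_erase A _ hp]
    have h1 : ∑ i ∈ A.erase p, y i • w i = - ∑ i ∈ A.erase p, c i • w i := by
      rw [← Finset.sum_neg_distrib]
      refine Finset.sum_congr rfl fun i hi => ?_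
      have : i ≠ p := (Finset.mem_erase.mp hi).1
      simp [hy, this]
    rw [h1, hc]
    simp [hy, hb, sub_eq_add_neg]
  set β : ℝ := 2 * (∑ k ∈ K, ⟪θ k, τ⟫ * ⟪θ k, b⟫) - 2 * x p * (GG K θ T - GG K θ U) with hβ
  obtain ⟨s, hs1, hs⟩ : ∃ s : ℝ, (s = 1 ∨ s = -1) ∧ s * β ≤ 0 := by
    rcases le_total β 0 with h | h
    · exact ⟨1, Or.inl rfl, by linarith⟩
    · exact ⟨-1, Or.inr rfl, by linarith⟩
  have hs2 : s ^ 2 = 1 := by rcases hs1 with rfl | rfl <;> norm_num
  obtain ⟨δ, hδ0, hδ1, hδ2⟩ := exists_hit A x (fun i => s * y i) hx p hp (by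
    simp only [hy, if_true]; rcases hs1 with rfl | rfl <;> norm_num)
  set x' : ι → ℝ := fun i => x i + δ * (s * y i) with hx'
  obtain ⟨ε, hε, hle⟩ := bdry x' hδ1 hδ2 T hT (τ + (δ * s) • b)
  refine ⟨ε, hε, ?_⟩
  have h1 : τ + (δ * s) • b + ∑ i ∈ A, (ε i - x' i) • w i = τ + ∑ i ∈ A, (ε i - x i) • w i := by
    rw [← hyb, Finset.smul_sum, add_assoc, ← Finset.sum_add_distrib]
    congr 1
    refine Finset.sum_congr rfl fun i _ => ?_
    rw [smul_smul, ← add_smul]
    congr 1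
    simp only [hx']; ring
  rw [h1, qf_add_smul] at hle
  have hx'p : x' p = x p + δ * s := by simp [hx', hy]
  rw [hx'p] at hle
  have hδs : (δ * s) ^ 2 = δ ^ 2 := by rw [mul_pow, hs2]; ring
  have hfin : 0 ≤ δ ^ 2 * (GG K θ T - GG K θ U - qf K θ b) :=
    mul_nonneg (sq_nonneg _) (by linarith)
  have hfin2 : δ * (s * β) ≤ 0 := mul_nonpos_of_nonneg_of_nonpos hδ0 hs
  rw [hβ] at hfin2
  nlinarith [hle, hfin, hfin2, hδs]

/-- main balancing statement -/
theorem balance (w : ι → E) (hw : ∀ i, ‖w i‖ ≤ 1) (K : Finset κ) (θ : κ → E)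
    (A : Finset ι) (x : ι → ℝ) (hx : ∀ i ∈ A, |x i| ≤ 1) :
    ∃ ε : ι → ℝ, (∀ i, ε i = 1 ∨ ε i = -1) ∧
      qf K θ (∑ i ∈ A, (ε i - x i) • w i) ≤ GG K θ (spn w A) := by
  rcases A.eq_empty_or_nonempty with rfl | ⟨p, hp⟩
  · refine ⟨fun _ => 1, fun _ => Or.inl rfl, ?_⟩
    have h0 : qf K θ (0 : E) = 0 := by simp [qf]
    simp only [Finset.sum_empty, h0]
    exact GG_nonneg _ _ _
  · obtain ⟨ε, hε, hle⟩ := pivot w hw K θ A.card A rfl p hp x hx (spn w A)
      (fun i hi => mem_spn w A hi) 0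
    refine ⟨ε, hε, ?_⟩
    have h0 : qf K θ (0 : E) = 0 := by simp [qf]
    rw [zero_add, h0] at hle
    have := GG_mono K θ (spn_mono w (Finset.erase_subset p A))
    nlinarith [sq_nonneg (x p)]

end Pivot

end Vale.Agent.P262
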