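import Mathlib

/-!
# Levels and weights
-/

set_option linter.unusedSectionVars false

open Finset

namespace Vale.Agent.P262

lemma exists_lv (R : ℕ) (a : ℝ) : ∃ j : ℕ, a < 2 ^ R * 2 ^ j := by
  obtain ⟨n, hn⟩ := pow_unbounded_of_one_lt a (one_lt_two (α := ℝ))
  refine ⟨n, hn.trans_le ?_⟩
  have : (1 : ℝ) ≤ 2 ^ R := one_le_pow₀ (by norm_num)
  have h2 : (0 : ℝ) ≤ 2 ^ n := by positivity
  nlinarith

open Classical in
/-- the first level at which a direction of total mass `a` has nominal mass below `2 ^ R` -/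
noncomputable def lv (R : ℕ) (a : ℝ) : ℕ := Nat.find (exists_lv R a)

lemma lv_spec (R : ℕ) (a : ℝ) : a < 2 ^ R * 2 ^ lv R a := Nat.find_spec (exists_lv R a)

lemma lt_of_lv_le {R : ℕ} {a : ℝ} {j : ℕ} (h : lv R a ≤ j) : a < 2 ^ R * 2 ^ j := by
  refine (lv_spec R a).trans_le ?_
  have : (2 : ℝ) ^ lv R a ≤ 2 ^ j := pow_le_pow_right₀ (by norm_num) h
  have h2 : (0 : ℝ) ≤ 2 ^ R := by positivity
  nlinarith

lemma le_of_lt_lv {R : ℕ} {a : ℝ} {j : ℕ} (h : j < lv R a) : 2 ^ R * 2 ^ j ≤ a := by
  have := Nat.find_min (exists_lv R a) h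
  push Not at this
  exact this

lemma lv_le {R : ℕ} {a : ℝ} {j : ℕ} (h : a < 2 ^ R * 2 ^ j) : lv R a ≤ j := Nat.find_le h

lemma lv_le_lv_zero (R : ℕ) (a : ℝ) : lv R a ≤ lv 0 a := by
  apply lv_le
  have h1 := lv_spec 0 a
  have : (1 : ℝ) ≤ 2 ^ R := one_le_pow₀ (by norm_num)
  have h2 : (0 : ℝ) ≤ 2 ^ lv 0 a := by positivity
  simp only [pow_zero, one_mul] at h1
  nlinarith

lemma lv_zero_le (R : ℕ) (a : ℝ) : lv 0 a ≤ lv R a + R := by
  apply lv_le
  have h1 := lv_spec R a
  rw [pow_zero, one_mul, pow_add, mul_comm]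
  exact h1

/-- mass weight -/
noncomputable def sw (R t j : ℕ) : ℝ :=
  if j < t then (R : ℝ) / 2 ^ (t - j) else R * (6 / 5) ^ (j - t)

/-- position weight -/
noncomputable def kw (R t j : ℕ) : ℝ :=
  if j < t then (R : ℝ) else R * (6 / 5) ^ (j - t)

/-- normalisation of the accumulated displacement -/
noncomputable def cw (R l t j : ℕ) : ℝ :=
  if j < t then 1 + ((j : ℝ) - l) / R else 8 - 6 * (5 / 6) ^ (j - t)

lemma kw_pos {R : ℕ} (hR : 1 ≤ R) (t j : ℕ) : 0 < kw R t j := by
  have : (0 : ℝ) < R := by exact_mod_cast hR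
  unfold kw; split_ifs <;> positivity

lemma sw_pos {R : ℕ} (hR : 1 ≤ R) (t j : ℕ) : 0 < sw R t j := by
  have : (0 : ℝ) < R := by exact_mod_cast hR
  unfold sw; split_ifs <;> positivity

lemma kw_trans {R t j : ℕ} (h : j < t) : kw R t j = R := by simp [kw, h]

lemma kw_deep {R t j : ℕ} (h : t ≤ j) : kw R t j = sw R t j := by
  simp [kw, sw, not_lt.mpr h]

lemma sw_deep_ge {R t j : ℕ} (h : t ≤ j) : (R : ℝ) ≤ sw R t j := by
  unfold sw
  rw [if_neg (not_lt.mpr h)]
  have : (1 : ℝ) ≤ (6 / 5) ^ (j - t) := one_le_pow₀ (by norm_num)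
  have hR : (0 : ℝ) ≤ R := by positivity
  nlinarith

lemma sw_trans_le {R t j : ℕ} (h : j < t) : sw R t j ≤ R / 2 := by
  unfold sw
  rw [if_pos h]
  have : (2 : ℝ) ^ 1 ≤ 2 ^ (t - j) := pow_le_pow_right₀ (by norm_num) (by omega)
  have hR : (0 : ℝ) ≤ R := by positivity
  apply div_le_div_of_nonneg_left hR (by norm_num)
  simpa using this

lemma sw_succ_trans {R t j : ℕ} (h : j < t) : sw R t (j + 1) = 2 * sw R t j := by
  unfold sw
  rw [if_pos h]
  by_cases h2 : j + 1 < t
  · rw [if_pos h2]
    have : t - j = (t - (j + 1)) + 1 := by omega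
    rw [this, pow_succ]
    field_simp
  · rw [if_neg h2]
    have h3 : t = j + 1 := by omega
    subst h3
    simp
    ring

lemma sw_succ_deep {R t j : ℕ} (h : t ≤ j) : sw R t (j + 1) = 6 / 5 * sw R t j := by
  unfold sw
  rw [if_neg (not_lt.mpr h), if_neg (by omega)]
  have : j + 1 - t = (j - t) + 1 := by omega
  rw [this, pow_succ]; ring

/-- bound of `sw` times the nominal mass -/
lemma sw_mul_le {R : ℕ} (hR : 1 ≤ R) {a : ℝ} {j : ℕ} (h : j ≤ lv 0 a) :
    sw R (lv 0 a) j * (a / 2 ^ j) ≤ R := by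
  have hspec := lv_spec 0 a
  rw [pow_zero, one_mul] at hspec
  have hRp : (0 : ℝ) < R := by exact_mod_cast hR
  rcases lt_or_eq_of_le h with h | h
  · unfold sw
    rw [if_pos h]
    have h2 : (2 : ℝ) ^ lv 0 a = 2 ^ (lv 0 a - j) * 2 ^ j := by
      rw [← pow_add]; congr 1; omega
    rw [h2] at hspec
    have h3 : (0 : ℝ) < 2 ^ (lv 0 a - j) := by positivity
    have h4 : (0 : ℝ) < 2 ^ j := by positivity
    have h5 : (R : ℝ) / 2 ^ (lv 0 a - j) * (a / 2 ^ j)
        = R * (a / (2 ^ (lv 0 a - j) * 2 ^ j)) := by field_simp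
    rw [h5]
    have h6 : a / (2 ^ (lv 0 a - j) * 2 ^ j) ≤ 1 := by
      rw [div_le_one (by positivity)]; exact hspec.le
    nlinarith
  · rw [← h] at hspec ⊢
    unfold sw
    simp only [lt_irrefl, if_false, Nat.sub_self, pow_zero, mul_one]
    have h6 : a / 2 ^ j ≤ 1 := by
      rw [div_le_one (by positivity)]; exact hspec.le
    nlinarith

lemma cw_pos_bounds {R l t j : ℕ} (hR : 1 ≤ R) (hlj : l ≤ j) (htl : t ≤ l + R) :
    1 ≤ cw R l t j ∧ cw R l t j ≤ 8 := by
  have hRp : (0 : ℝ) < R := by exact_mod_cast hR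
  unfold cw
  split_ifs with h
  · have h1 : (l : ℝ) ≤ j := by exact_mod_cast hlj
    have h2 : (j : ℝ) - l ≤ R := by
      have : j ≤ l + R := by omega
      have : (j : ℝ) ≤ l + R := by exact_mod_cast this
      linarith
    have h3 : ((j : ℝ) - l) / R ≤ 1 := by rw [div_le_one hRp]; exact h2
    have h4 : 0 ≤ ((j : ℝ) - l) / R := div_nonneg (by linarith) hRp.le
    constructor <;> linarith
  · have h1 : (0 : ℝ) < (5 / 6) ^ (j - t) := by positivity
    have h2 : ((5 : ℝ) / 6) ^ (j - t) ≤ 1 := pow_le_one₀ (by norm_num) (by norm_num)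
    constructor <;> linarith

lemma cw_succ {R l t j : ℕ} (hR : 1 ≤ R) (hlj : l ≤ j) (htl : t ≤ l + R) :
    cw R l t j + 1 / kw R t j ≤ cw R l t (j + 1) := by
  have hRp : (0 : ℝ) < R := by exact_mod_cast hR
  have hR1 : (1 : ℝ) ≤ R := by exact_mod_cast hR
  rcases lt_or_ge j t with h | h
  · rw [kw_trans h]
    unfold cw
    rw [if_pos h]
    by_cases h2 : j + 1 < t
    · rw [if_pos h2]
      push_cast
      apply le_of_eq
      field_simp
      ring
    · rw [if_neg h2]
      have h3 : t = j + 1 := by omega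
      subst h3
      have h4 : ((j : ℝ) + 1) ≤ l + R := by exact_mod_cast htl
      have h5 : ((j : ℝ) - l) / R + 1 / R ≤ 1 := by
        rw [← add_div, div_le_one hRp]; linarith
      simp
      simp at h5
      linarith
  · unfold cw kw
    rw [if_neg (not_lt.mpr h), if_neg (not_lt.mpr h), if_neg (by omega)]
    have h1 : j + 1 - t = (j - t) + 1 := by omega
    rw [h1, pow_succ]
    have h2 : (1 : ℝ) / (R * (6 / 5) ^ (j - t)) = (5 / 6) ^ (j - t) / R := by
      have : ((6 : ℝ) / 5) ^ (j - t) = ((5 / 6) ^ (j - t))⁻¹ := by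
        rw [← inv_pow]; norm_num
      rw [this]
      have h3 : ((5 : ℝ) / 6) ^ (j - t) ≠ 0 := by positivity
      field_simp
    rw [h2]
    have h3 : (0 : ℝ) < (5 / 6) ^ (j - t) := by positivity
    have h4 : ((5 : ℝ) / 6) ^ (j - t) / R ≤ (5 / 6) ^ (j - t) := by
      rw [div_le_iff₀ hRp]; nlinarith
    linarith

section counts

variable {d : ℕ} (R : ℕ) (a : Fin d → ℝ)

/-- number of directions that are no longer live at level `m` -/
noncomputable def Nc (m : ℕ) : ℕ := (Finset.univ.filter (fun k => lv R (a k) ≤ m)).card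

/-- number of transitional directions at level `j` -/
noncomputable def nc (j : ℕ) : ℕ :=
  (Finset.univ.filter (fun k => lv R (a k) ≤ j ∧ j < lv 0 (a k))).card

lemma Nc_le (m : ℕ) : Nc R a m ≤ d := by
  unfold Nc
  exact (Finset.card_filter_le _ _).trans (by simp)

lemma Nc_sub {j m : ℕ} (h : j ≤ m) :
    (Nc R a m : ℝ) = Nc R a j +
      ((Finset.univ.filter (fun k => j < lv R (a k) ∧ lv R (a k) ≤ m)).card : ℝ) := by
  unfold Nc
  rw [← Nat.cast_add, ← Finset.card_union_of_disjoint]
  · congr 2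
    ext k
    simp only [Finset.mem_filter, Finset.mem_univ, true_and, Finset.mem_union]
    omega
  · rw [Finset.disjoint_filter]
    intro k _ h1 h2
    omega

lemma sum_nc_le (j : ℕ) : ∑ i ∈ Finset.range j, nc R a i ≤ R * d := by
  unfold nc
  simp only [Finset.card_filter]
  rw [Finset.sum_comm]
  calc ∑ k : Fin d, ∑ i ∈ Finset.range j, (if lv R (a k) ≤ i ∧ i < lv 0 (a k) then 1 else 0)
      ≤ ∑ _k : Fin d, R := by
        refine Finset.sum_le_sum fun k _ => ?_
        rw [← Finset.card_filter]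
        calc ((Finset.range j).filter (fun i => lv R (a k) ≤ i ∧ i < lv 0 (a k))).card
            ≤ (Finset.Ico (lv R (a k)) (lv 0 (a k))).card := by
              apply Finset.card_le_card
              intro i hi
              simp only [Finset.mem_filter, Finset.mem_Ico] at hi ⊢
              exact hi.2
          _ = lv 0 (a k) - lv R (a k) := by simp
          _ ≤ R := by have := lv_zero_le R (a k); omega
    _ = R * d := by simp [mul_comm]

/-- rank weight of a live direction -/
noncomputable def rw' (j : ℕ) (k : Fin d) : ℝ :=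
  if j < lv R (a k) then
    1 / ((Finset.univ.filter (fun k' => j < lv R (a k') ∧ lv R (a k') ≤ lv R (a k))).card : ℝ)
  else 0

lemma rw'_nonneg (j : ℕ) (k : Fin d) : 0 ≤ rw' R a j k := by
  unfold rw'; split_ifs <;> positivity

lemma sum_rank_le {α : Type*} [DecidableEq α] (f : α → ℕ) (s : Finset α) :
    ∑ k ∈ s, 1 / ((s.filter (fun k' => f k' ≤ f k)).card : ℝ) ≤
      ∑ i ∈ Finset.range s.card, 1 / ((i : ℝ) + 1) := by
  induction s using Finset.induction_on_max_value f with
  | empty => simp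
  | insert x s hx hmax ih =>
    rw [Finset.sum_insert hx, Finset.card_insert_of_notMem hx, Finset.sum_range_succ, add_comm]
    apply add_le_add
    · refine le_trans (Finset.sum_le_sum fun k hk => ?_) ih
      have hpos : 0 < ((s.filter (fun k' => f k' ≤ f k)).card : ℝ) := by
        have : 0 < (s.filter (fun k' => f k' ≤ f k)).card :=
          Finset.card_pos.mpr ⟨k, by simp [hk]⟩
        exact_mod_cast this
      apply one_div_le_one_div_of_le hpos
      have : (s.filter (fun k' => f k' ≤ f k)).card ≤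
          ((insert x s).filter (fun k' => f k' ≤ f k)).card :=
        Finset.card_le_card (Finset.filter_subset_filter _ (Finset.subset_insert x s))
      exact_mod_cast this
    · have h1 : (insert x s).filter (fun k' => f k' ≤ f x) = insert x s := by
        apply Finset.filter_true_of_mem
        intro y hy
        rcases Finset.mem_insert.mp hy with rfl | hy
        · exact le_rfl
        · exact hmax y hy
      rw [h1, Finset.card_insert_of_notMem hx]
      push_cast
      exact le_rfl

lemma sum_inv_le_log (n d : ℕ) (h : n ≤ d) :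
    ∑ i ∈ Finset.range n, 1 / ((i : ℝ) + 1) ≤ 1 + Real.log d := by
  rcases Nat.eq_zero_or_pos n with rfl | hn
  · simp
    have : 0 ≤ Real.log (d : ℝ) := Real.log_natCast_nonneg d
    linarith
  · have h1 : ∑ i ∈ Finset.range n, 1 / ((i : ℝ) + 1) = (harmonic n : ℝ) := by
      unfold harmonic
      push_cast
      refine Finset.sum_congr rfl fun i _ => ?_
      rw [one_div]
    rw [h1]
    refine (harmonic_le_one_add_log n).trans ?_
    have : Real.log (n : ℝ) ≤ Real.log d := by
      apply Real.log_le_log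
      · exact_mod_cast hn
      · exact_mod_cast h
    linarith

lemma sum_rw'_le (j : ℕ) : ∑ k, rw' R a j k ≤ 1 + Real.log d := by
  unfold rw'
  rw [← Finset.sum_filter]
  have h := sum_rank_le (fun k => lv R (a k)) (Finset.univ.filter (fun k => j < lv R (a k)))
  have h2 := sum_inv_le_log (Finset.univ.filter (fun k => j < lv R (a k))).card d
    ((Finset.card_filter_le _ _).trans (by simp))
  refine le_trans (le_of_eq ?_) (h.trans h2)
  refine Finset.sum_congr rfl fun k _ => ?_
  rw [Finset.filter_filter]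

lemma prefix_le (j m : ℕ) (hjm : j ≤ m) (y : Fin d → ℝ) :
    ∑ k with j < lv R (a k) ∧ lv R (a k) ≤ m, (y k) ^ 2 ≤
      ((Nc R a m : ℝ) - Nc R a j) * ∑ k, rw' R a j k * (y k) ^ 2 := by
  have hc := Nc_sub R a hjm
  have hc' : (Nc R a m : ℝ) - Nc R a j =
    ((Finset.univ.filter (fun k => j < lv R (a k) ∧ lv R (a k) ≤ m)).card : ℝ) := by linarith
  rw [hc', Finset.mul_sum]
  calc ∑ k with j < lv R (a k) ∧ lv R (a k) ≤ m, (y k) ^ 2
      ≤ ∑ k with j < lv R (a k) ∧ lv R (a k) ≤ m,
        ((Finset.univ.filter (fun k => j < lv R (a k) ∧ lv R (a k) ≤ m)).card : ℝ) *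
          (rw' R a j k * (y k) ^ 2) := by
        refine Finset.sum_le_sum fun k hk => ?_
        have hk' := (Finset.mem_filter.mp hk).2
        unfold rw'
        rw [if_pos hk'.1]
        have hpos : 0 < ((Finset.univ.filter (fun k' =>
            j < lv R (a k') ∧ lv R (a k') ≤ lv R (a k))).card : ℝ) := by
          have : 0 < (Finset.univ.filter (fun k' =>
            j < lv R (a k') ∧ lv R (a k') ≤ lv R (a k))).card :=
            Finset.card_pos.mpr ⟨k, by simp [hk'.1]⟩
          exact_mod_cast this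
        have hle : ((Finset.univ.filter (fun k' =>
            j < lv R (a k') ∧ lv R (a k') ≤ lv R (a k))).card : ℝ) ≤
            ((Finset.univ.filter (fun k => j < lv R (a k) ∧ lv R (a k) ≤ m)).card : ℝ) := by
          have : (Finset.univ.filter (fun k' =>
            j < lv R (a k') ∧ lv R (a k') ≤ lv R (a k))).card ≤
            (Finset.univ.filter (fun k => j < lv R (a k) ∧ lv R (a k) ≤ m)).card := by
            apply Finset.card_le_card
            intro k' hk''
            simp only [Finset.mem_filter, Finset.mem_univ, true_and] at hk'' ⊢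
            omega
          exact_mod_cast this
        have h1 : 1 ≤ ((Finset.univ.filter (fun k => j < lv R (a k) ∧
            lv R (a k) ≤ m)).card : ℝ) * (1 / ((Finset.univ.filter (fun k' =>
            j < lv R (a k') ∧ lv R (a k') ≤ lv R (a k))).card : ℝ)) := by
          rw [mul_one_div, le_div_iff₀ hpos]; linarith
        have := sq_nonneg (y k)
        nlinarith
    _ ≤ _ := by
        apply Finset.sum_le_sum_of_subset_of_nonneg (Finset.filter_subset _ _)
        intro k _ _
        exact mul_nonneg (by positivity) (mul_nonneg (rw'_nonneg R a j k) (sq_nonneg _))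

end counts

end Vale.Agent.P262
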