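import Vale.Agent.P262.BTA
import Vale.Agent.P262.Weights

/-!
# Balancing one block
-/

set_option linter.unusedSectionVars false
set_option linter.unusedSimpArgs false
set_option linter.unusedVariables false

open Finset

namespace Vale.Agent.P262

section Block

variable {ι κ : Type*} [Fintype ι] [DecidableEq ι] [Fintype κ] [DecidableEq κ]

theorem bta3 {γ : Type*} [Fintype γ] (w : ι → κ → ℝ)
    (ω : γ → κ → ℝ) (hω : ∀ g c, 0 ≤ ω g c)
    (A : Finset ι) (hw : ∀ i ∈ A, ∑ c, (w i c) ^ 2 ≤ 3) (x : ι → ℝ) (hx : ∀ i ∈ A, |x i| ≤ 1) :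
    ∃ ε : ι → ℝ, (∀ i, ε i = 1 ∨ ε i = -1) ∧ ∀ g,
      ∑ c, ω g c * (∑ i ∈ A, (ε i - x i) * w i c) ^ 2 ≤
        6 * Fintype.card γ * ∑ c, ω g c * min 1 (∑ i ∈ A, (w i c) ^ 2) := by
  classical
  have h3 : (√3 : ℝ) ^ 2 = 3 := Real.sq_sqrt (by norm_num)
  obtain ⟨ε, hε, hle⟩ := bta_groups (fun i c => if i ∈ A then w i c / √3 else 0) (by
    intro i
    by_cases hi : i ∈ A
    · simp only [hi, if_true, div_pow, h3]
      rw [← Finset.sum_div]
      have := hw i hi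
      linarith
    · simp [hi]) ω hω A x hx
  refine ⟨ε, hε, fun g => ?_⟩
  have h := hle g
  have hL : ∀ c, ∑ i ∈ A, (ε i - x i) * (if i ∈ A then w i c / √3 else 0)
      = (∑ i ∈ A, (ε i - x i) * w i c) / √3 := by
    intro c
    rw [Finset.sum_div]
    refine Finset.sum_congr rfl fun i hi => ?_
    simp [hi, mul_div_assoc]
  have hR : ∀ c, ∑ i ∈ A, (if i ∈ A then w i c / √3 else 0) ^ 2
      = (∑ i ∈ A, (w i c) ^ 2) / 3 := by
    intro c
    rw [Finset.sum_div]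
    refine Finset.sum_congr rfl fun i hi => ?_
    simp [hi, div_pow, h3]
  simp only [hL, hR, div_pow, h3] at h
  have h1 : ∑ c, ω g c * ((∑ i ∈ A, (ε i - x i) * w i c) ^ 2 / 3)
      = (∑ c, ω g c * (∑ i ∈ A, (ε i - x i) * w i c) ^ 2) / 3 := by
    rw [Finset.sum_div]
    refine Finset.sum_congr rfl fun c _ => ?_
    ring
  have h2 : ∑ c, ω g c * min 1 ((∑ i ∈ A, (w i c) ^ 2) / 3) ≤
      ∑ c, ω g c * min 1 (∑ i ∈ A, (w i c) ^ 2) := by
    refine Finset.sum_le_sum fun c _ => mul_le_mul_of_nonneg_left ?_ (hω g c)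
    apply min_le_min le_rfl
    have : 0 ≤ ∑ i ∈ A, (w i c) ^ 2 := Finset.sum_nonneg fun _ _ => sq_nonneg _
    linarith
  rw [h1] at h
  have h4 : (0 : ℝ) ≤ 2 * Fintype.card γ := by positivity
  have h5 := mul_le_mul_of_nonneg_left h2 h4
  linarith

end Block

section BlockBalance

variable {ι : Type*} [Fintype ι] [DecidableEq ι] {d : ℕ}

/-- error of the signing in a scalar coordinate `f` -/
noncomputable def er (B : Finset ι) (ε x : ι → ℝ) (f : ι → ℝ) : ℝ := ∑ i ∈ B, (ε i - x i) * f i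

/-- coordinates -/
noncomputable def co (σ : ℝ) (a : Fin d → ℝ) (j : ℕ) (m : Fin d → ℝ) (u : ι → Fin d → ℝ) (i : ι) :
    (Fin d ⊕ (Fin d × Fin d) ⊕ Fin d) → ℝ :=
  Sum.elim (fun k => u i k) (Sum.elim (fun kl => u i kl.1 * u i kl.2)
    (fun k => if lv 0 (a k) ≤ j then (u i k) ^ 2 / √(σ * m k) else 0))

/-- group weights -/
noncomputable def gw (R : ℕ) (a : Fin d → ℝ) (j : ℕ) :
    Fin 5 → (Fin d ⊕ (Fin d × Fin d) ⊕ Fin d) → ℝ :=
  ![Sum.elim (fun k => if lv R (a k) ≤ j then kw R (lv 0 (a k)) j else 0) (fun _ => 0),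
    Sum.elim (fun _ => 0) (Sum.elim
      (fun kl => if kl.1 = kl.2 ∧ lv R (a kl.1) ≤ j ∧ j < lv 0 (a kl.1) then 1 else 0)
      (fun _ => 0)),
    Sum.elim (fun _ => 0) (Sum.elim (fun _ => 0)
      (fun k => if lv 0 (a k) ≤ j then kw R (lv 0 (a k)) j else 0)),
    Sum.elim (fun _ => 0) (Sum.elim (fun _ => 1) (fun _ => 0)),
    Sum.elim (fun k => rw' R a j k) (fun _ => 0)]

lemma gw_nonneg {R : ℕ} (hR : 1 ≤ R) (a : Fin d → ℝ) (j : ℕ) (g : Fin 5)
    (c : Fin d ⊕ (Fin d × Fin d) ⊕ Fin d) : 0 ≤ gw R a j g c := by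
  fin_cases g <;> rcases c with k | ⟨k, l⟩ | k <;> simp [gw]
  · split_ifs
    · exact (kw_pos hR _ _).le
    · exact le_rfl
  · split_ifs <;> norm_num
  · split_ifs
    · exact (kw_pos hR _ _).le
    · exact le_rfl
  · exact rw'_nonneg R a j k

lemma co_norm {σ : ℝ} (hσ : 0 < σ) (a : Fin d → ℝ) (j : ℕ) (m : Fin d → ℝ)
    (u : ι → Fin d → ℝ) (i : ι) (hu : ∑ k, (u i k) ^ 2 ≤ 1)
    (hm : ∀ k, lv 0 (a k) ≤ j → (u i k) ^ 2 ≤ σ * m k) :
    ∑ c, (co σ a j m u i c) ^ 2 ≤ 3 := by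
  rw [Fintype.sum_sum_type, Fintype.sum_sum_type, Fintype.sum_prod_type]
  simp only [co, Sum.elim_inl, Sum.elim_inr]
  have h1 : ∑ k, ∑ l, (u i k * u i l) ^ 2 ≤ 1 := by
    have : ∑ k, ∑ l, (u i k * u i l) ^ 2 = (∑ k, (u i k) ^ 2) * ∑ l, (u i l) ^ 2 := by
      rw [Finset.sum_mul_sum]
      refine Finset.sum_congr rfl fun k _ => Finset.sum_congr rfl fun l _ => ?_
      ring
    rw [this]
    have h0 : 0 ≤ ∑ k, (u i k) ^ 2 := Finset.sum_nonneg fun _ _ => sq_nonneg _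
    nlinarith
  have h2 : ∑ k, (if lv 0 (a k) ≤ j then (u i k) ^ 2 / √(σ * m k) else 0) ^ 2 ≤
      ∑ k, (u i k) ^ 2 := by
    refine Finset.sum_le_sum fun k _ => ?_
    split_ifs with hk
    · have h3 := hm k hk
      rcases eq_or_lt_of_le (sq_nonneg (u i k)) with h0 | h0
      · rw [← h0]; simp
      · have h4 : 0 < σ * m k := h0.trans_le h3
        rw [div_pow, Real.sq_sqrt h4.le, div_le_iff₀ h4]
        nlinarith
    · simpa using sq_nonneg (u i k)
  linarith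

/-- Balancing a block. -/
theorem block_balance {R : ℕ} (hR : 1 ≤ R) (a : Fin d → ℝ) (j : ℕ) {σ : ℝ} (hσ : 0 < σ)
    (B : Finset ι) (u : ι → Fin d → ℝ) (m : Fin d → ℝ)
    (hu : ∀ i ∈ B, ∑ k, (u i k) ^ 2 ≤ 1)
    (hm : ∀ k, lv 0 (a k) ≤ j → ∀ i ∈ B, (u i k) ^ 2 ≤ σ * m k)
    (hmu : ∀ k, ∑ i ∈ B, (u i k) ^ 2 ≤ m k)
    (x : ι → ℝ) (hx : ∀ i ∈ B, |x i| ≤ 1) :
    ∃ ε : ι → ℝ, (∀ i, ε i = 1 ∨ ε i = -1) ∧
      (∑ k with lv R (a k) ≤ j, kw R (lv 0 (a k)) j * (er B ε x (fun i => u i k)) ^ 2 ≤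
        30 * ∑ k with lv R (a k) ≤ j, kw R (lv 0 (a k)) j * min 1 (m k)) ∧
      (∑ k with lv R (a k) ≤ j ∧ j < lv 0 (a k), (er B ε x (fun i => u i k * u i k)) ^ 2 ≤
        30 * nc R a j) ∧
      (∑ k with lv 0 (a k) ≤ j, kw R (lv 0 (a k)) j *
          ((er B ε x (fun i => u i k * u i k)) ^ 2 / m k) ≤
        30 * σ * ∑ k with lv 0 (a k) ≤ j, kw R (lv 0 (a k)) j * m k) ∧
      (∀ k l, (er B ε x (fun i => u i k * u i l)) ^ 2 ≤ 30 * (d : ℝ) ^ 2) ∧
      (∑ k, rw' R a j k * (er B ε x (fun i => u i k)) ^ 2 ≤ 30 * (1 + Real.log d)) := by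
  classical
  obtain ⟨ε, hε, hle⟩ := bta3 (co σ a j m u) (gw R a j) (gw_nonneg hR a j) B
    (fun i hi => co_norm hσ a j m u i (hu i hi) (fun k hk => hm k hk i hi)) x hx
  have hcard : (6 * (Fintype.card (Fin 5) : ℝ)) = 30 := by simp; norm_num
  simp only [hcard] at hle
  have hmk : ∀ k, 0 ≤ m k := fun k => (Finset.sum_nonneg fun _ _ => sq_nonneg _).trans (hmu k)
  refine ⟨ε, hε, ?_, ?_, ?_, ?_, ?_⟩
  · have h := hle 0
    simp only [gw, co, Fintype.sum_sum_type, Matrix.cons_val_zero, Sum.elim_inl, Sum.elim_inr,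
      zero_mul, Finset.sum_const_zero, add_zero, ite_mul] at h
    rw [← Finset.sum_filter, ← Finset.sum_filter] at h
    refine le_trans h ?_
    apply mul_le_mul_of_nonneg_left _ (by norm_num)
    refine Finset.sum_le_sum fun k _ => mul_le_mul_of_nonneg_left ?_ (kw_pos hR _ _).le
    exact min_le_min le_rfl (hmu k)
  · have h := hle 1
    simp only [gw, co, Fintype.sum_sum_type, Fintype.sum_prod_type, Matrix.cons_val_one,
      Matrix.cons_val_zero, Sum.elim_inl, Sum.elim_inr,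
      zero_mul, Finset.sum_const_zero, add_zero, zero_add, ite_mul, one_mul] at h
    have hdiag : ∀ F : Fin d → Fin d → ℝ, ∑ k, ∑ l, (if k = l ∧ lv R (a k) ≤ j ∧ j < lv 0 (a k)
        then F k l else 0) = ∑ k with lv R (a k) ≤ j ∧ j < lv 0 (a k), F k k := by
      intro F
      rw [Finset.sum_filter]
      refine Finset.sum_congr rfl fun k _ => ?_
      rw [Finset.sum_eq_single k]
      · simp
      · intro l _ hl
        rw [if_neg]
        rintro ⟨h, -⟩
        exact hl h.symm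
      · simp
    rw [hdiag, hdiag] at h
    refine le_trans h ?_
    apply mul_le_mul_of_nonneg_left _ (by norm_num)
    calc ∑ k with lv R (a k) ≤ j ∧ j < lv 0 (a k), min 1 (∑ i ∈ B, (u i k * u i k) ^ 2)
        ≤ ∑ k with lv R (a k) ≤ j ∧ j < lv 0 (a k), (1 : ℝ) :=
          Finset.sum_le_sum fun k _ => min_le_left _ _
      _ = nc R a j := by simp [nc]
  · have h := hle 2
    simp only [gw, co, Fintype.sum_sum_type, Fintype.sum_prod_type, Matrix.cons_val,
      Sum.elim_inl, Sum.elim_inr,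
      zero_mul, Finset.sum_const_zero, add_zero, zero_add, ite_mul, one_mul] at h
    rw [← Finset.sum_filter, ← Finset.sum_filter] at h
    have hL : ∀ k, lv 0 (a k) ≤ j → (∑ i ∈ B, (ε i - x i) *
        (if lv 0 (a k) ≤ j then (u i k) ^ 2 / √(σ * m k) else 0)) ^ 2 =
        (er B ε x (fun i => u i k * u i k)) ^ 2 / m k / σ := by
      intro k hk
      have h1 : ∑ i ∈ B, (ε i - x i) *
          (if lv 0 (a k) ≤ j then (u i k) ^ 2 / √(σ * m k) else 0) =
          (er B ε x (fun i => u i k * u i k)) / √(σ * m k) := by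
        unfold er
        rw [Finset.sum_div]
        refine Finset.sum_congr rfl fun i _ => ?_
        rw [if_pos hk]; ring
      rw [h1, div_pow, Real.sq_sqrt (mul_nonneg hσ.le (hmk k)), div_div, mul_comm σ]
    have hR' : ∀ k, lv 0 (a k) ≤ j → min 1 (∑ i ∈ B,
        (if lv 0 (a k) ≤ j then (u i k) ^ 2 / √(σ * m k) else 0) ^ 2) ≤ m k := by
      intro k hk
      refine (min_le_right _ _).trans (le_trans (Finset.sum_le_sum fun i hi => ?_) (hmu k))
      rw [if_pos hk]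
      have h3 := hm k hk i hi
      rcases eq_or_lt_of_le (sq_nonneg (u i k)) with h0 | h0
      · rw [← h0]; simp
      · have h4 : 0 < σ * m k := h0.trans_le h3
        rw [div_pow, Real.sq_sqrt h4.le, div_le_iff₀ h4]
        nlinarith
    have h1 : ∑ k with lv 0 (a k) ≤ j, kw R (lv 0 (a k)) j *
          ((er B ε x (fun i => u i k * u i k)) ^ 2 / m k) / σ ≤
        30 * ∑ k with lv 0 (a k) ≤ j, kw R (lv 0 (a k)) j * m k := by
      refine le_trans (le_of_eq ?_) (h.trans ?_)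
      · refine Finset.sum_congr rfl fun k hk => ?_
        rw [hL k (Finset.mem_filter.mp hk).2]; ring
      · apply mul_le_mul_of_nonneg_left _ (by norm_num)
        refine Finset.sum_le_sum fun k hk => mul_le_mul_of_nonneg_left ?_ (kw_pos hR _ _).le
        exact hR' k (Finset.mem_filter.mp hk).2
    rw [← Finset.sum_div, div_le_iff₀ hσ] at h1
    linarith
  · intro k l
    have h := hle 3
    simp only [gw, co, Fintype.sum_sum_type, Fintype.sum_prod_type, Matrix.cons_val,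
      Sum.elim_inl, Sum.elim_inr,
      zero_mul, Finset.sum_const_zero, add_zero, zero_add, ite_mul, one_mul] at h
    have h1 : ∑ k : Fin d, ∑ l : Fin d, min 1 (∑ i ∈ B, (u i k * u i l) ^ 2) ≤ (d : ℝ) ^ 2 := by
      calc ∑ k : Fin d, ∑ l : Fin d, min 1 (∑ i ∈ B, (u i k * u i l) ^ 2)
          ≤ ∑ _k : Fin d, ∑ _l : Fin d, (1 : ℝ) :=
            Finset.sum_le_sum fun k _ => Finset.sum_le_sum fun l _ => min_le_left _ _
        _ = (d : ℝ) ^ 2 := by simp [pow_two]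
    have h2 : (er B ε x (fun i => u i k * u i l)) ^ 2 ≤
        ∑ k, ∑ l, (∑ i ∈ B, (ε i - x i) * (u i k * u i l)) ^ 2 := by
      have h3 : (∑ i ∈ B, (ε i - x i) * (u i k * u i l)) ^ 2 ≤
          ∑ l, (∑ i ∈ B, (ε i - x i) * (u i k * u i l)) ^ 2 :=
        Finset.single_le_sum (f := fun l => (∑ i ∈ B, (ε i - x i) * (u i k * u i l)) ^ 2)
          (fun _ _ => sq_nonneg _) (Finset.mem_univ l)
      have h4 : ∑ l, (∑ i ∈ B, (ε i - x i) * (u i k * u i l)) ^ 2 ≤
          ∑ k, ∑ l, (∑ i ∈ B, (ε i - x i) * (u i k * u i l)) ^ 2 :=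
        Finset.single_le_sum
          (f := fun k => ∑ l, (∑ i ∈ B, (ε i - x i) * (u i k * u i l)) ^ 2)
          (fun _ _ => Finset.sum_nonneg fun _ _ => sq_nonneg _) (Finset.mem_univ k)
      exact h3.trans h4
    linarith
  · have h := hle 4
    simp only [gw, co, Fintype.sum_sum_type, Fintype.sum_prod_type, Matrix.cons_val,
      Sum.elim_inl, Sum.elim_inr,
      zero_mul, Finset.sum_const_zero, add_zero, zero_add, ite_mul, one_mul] at h
    refine le_trans h ?_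
    apply mul_le_mul_of_nonneg_left _ (by norm_num)
    refine le_trans (Finset.sum_le_sum fun k _ => ?_) (sum_rw'_le R a j)
    have := rw'_nonneg R a j k
    have h2 : min 1 (∑ i ∈ B, (u i k) ^ 2) ≤ 1 := min_le_left _ _
    nlinarith

end BlockBalance

end Vale.Agent.P262
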