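import Vale.Agent.P262.Step

/-!
# The theorem in diagonalising coordinates
-/

set_option linter.unusedSectionVars false
set_option linter.unusedVariables false

open Finset

namespace Vale.Agent.P262

section Coord

variable {ι : Type*} [Fintype ι] [DecidableEq ι] {d : ℕ} {R : ℕ} {a : Fin d → ℝ} {j : ℕ}

/-- the final bound for squared norms -/
noncomputable def Mfin (d R : ℕ) : ℝ :=
  54 * (16 * (1 + Real.log d)) * d + 86400000 * R * (R + 1) * d + 12 * (R + 1) * d

theorem base (hR : 1 ≤ R) (hdeep : ∀ k, lv 0 (a k) ≤ j)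
    {B : Finset ι} {u : ι → Fin d → ℝ} {P τ ζ D : Fin d → ℝ} {YL YR s : ℝ}
    (h : Inv R a (16 * (1 + Real.log d)) j B u P τ ζ D YL YR s) :
    Good (Mfin d R) B u P τ := by
  classical
  have hRp : (0 : ℝ) < R := by exact_mod_cast hR
  have hlog : 0 ≤ Real.log (d : ℝ) := Real.log_natCast_nonneg d
  set Λ := 16 * (1 + Real.log (d : ℝ)) with hΛ
  have hΛ0 : 0 ≤ Λ := by positivity
  have hnl : ∀ k, lv R (a k) ≤ j := fun k => (lv_le_lv_zero R (a k)).trans (hdeep k)
  have hfil : Finset.univ.filter (fun k => lv R (a k) ≤ j) = Finset.univ :=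
    Finset.filter_true_of_mem fun k _ => hnl k
  have hNcd : (Nc R a j : ℝ) ≤ d := by exact_mod_cast Nc_le R a j
  have hYL : YL ≤ Λ * d := by
    have h1 := h.preL j le_rfl
    have h0 : 0 ≤ ∑ k with j < lv R (a k) ∧ lv R (a k) ≤ j, (P k) ^ 2 :=
      Finset.sum_nonneg fun _ _ => sq_nonneg _
    have := mul_le_mul_of_nonneg_left hNcd hΛ0
    linarith
  have hYR : YR ≤ Λ * d := by
    have h1 := h.preR j le_rfl
    have h0 : 0 ≤ ∑ k with j < lv R (a k) ∧ lv R (a k) ≤ j, (P k + ∑ i ∈ B, u i k) ^ 2 :=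
      Finset.sum_nonneg fun _ _ => sq_nonneg _
    have := mul_le_mul_of_nonneg_left hNcd hΛ0
    linarith
  have hζ : ∑ k, (ζ k) ^ 2 ≤ 2 * Λ * d := by
    have := h.zetaY
    rw [hfil] at this
    linarith
  -- displacement
  have hDs := h.Dsum
  rw [hfil] at hDs
  have hD8 : (∑ k, (D k) ^ 2) / 8 ≤ s := by
    refine le_trans ?_ hDs
    rw [Finset.sum_div]
    refine Finset.sum_le_sum fun k _ => ?_
    have hb := cw_pos_bounds hR (hnl k) (lv_zero_le R (a k))
    exact div_le_div_of_nonneg_left (sq_nonneg _) (by linarith [hb.1]) hb.2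
  have hs0 : 0 ≤ s := by
    refine le_trans ?_ hD8
    exact div_nonneg (Finset.sum_nonneg fun _ _ => sq_nonneg _) (by norm_num)
  have hnc : (∑ i ∈ Finset.range j, (nc R a i : ℝ)) ≤ R * d := by
    have := sum_nc_le R a j
    exact_mod_cast this
  have hbud := h.budget
  have hSSge : (R : ℝ) * ∑ k, ∑ i ∈ B, (u i k) ^ 2 ≤ SS R a j j B u := by
    unfold SS
    rw [hfil, Finset.mul_sum]
    refine Finset.sum_le_sum fun k _ => ?_
    exact mul_le_mul_of_nonneg_right (sw_deep_ge (hdeep k))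
      (Finset.sum_nonneg fun _ _ => sq_nonneg _)
  have hSS0 : 0 ≤ ∑ k, ∑ i ∈ B, (u i k) ^ 2 :=
    Finset.sum_nonneg fun _ _ => Finset.sum_nonneg fun _ _ => sq_nonneg _
  have htot : 400000 * (R : ℝ) * (∑ i ∈ Finset.range j, (nc R a i : ℝ) + Nc R a j) ≤
      400000 * R * ((R + 1) * d) := by
    apply mul_le_mul_of_nonneg_left _ (by positivity)
    linarith
  have hs1 : s ≤ 400000 * R * ((R + 1) * d) := by
    have := mul_nonneg hRp.le hSS0
    linarith
  have hm1 : ∑ k, ∑ i ∈ B, (u i k) ^ 2 ≤ 4 * ((R + 1) * d) := by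
    have h1 : 120000 * (R * ∑ k, ∑ i ∈ B, (u i k) ^ 2) ≤ 400000 * R * ((R + 1) * d) := by
      linarith
    have h2 : (R : ℝ) * ∑ k, ∑ i ∈ B, (u i k) ^ 2 ≤ R * (4 * ((R + 1) * d)) := by
      have : 0 ≤ (R : ℝ) * ((R + 1) * d) := by positivity
      linarith
    exact le_of_mul_le_mul_left h2 hRp
  -- greedy ordering
  obtain ⟨l, hl, hlB, hle⟩ := greedy u B.card B rfl
  refine ⟨l, hl, hlB, fun n => ?_⟩
  have hsplit : ∀ k, lsum u (l.take n) k + lsum u (l.drop n) k = ∑ i ∈ B, u i k := by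
    intro k
    rw [← lsum_append, List.take_append_drop, lsum_eq_sum u l hl, hlB]
  have hpt : ∀ k, (|P k + lsum u (l.take n) k| + τ k) ^ 2 ≤
      3 * ((lsum u (l.drop n) k) ^ 2 + (ζ k) ^ 2 + (D k) ^ 2) := by
    intro k
    have h1 : P k + lsum u (l.take n) k = (P k + ∑ i ∈ B, u i k) - lsum u (l.drop n) k := by
      have := hsplit k
      linarith
    have h2 := h.posR k (hnl k)
    simp only at h2
    have h3 : |P k + lsum u (l.take n) k| + τ k ≤ |lsum u (l.drop n) k| + (ζ k + D k) := by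
      rw [h1]
      have := abs_sub (P k + ∑ i ∈ B, u i k) (lsum u (l.drop n) k)
      linarith
    have h4 : 0 ≤ |P k + lsum u (l.take n) k| + τ k := add_nonneg (abs_nonneg _) (h.tau0 k)
    have h5 := pow_le_pow_left₀ h4 h3 2
    refine h5.trans ?_
    have h6 : (lsum u (l.drop n) k) ^ 2 = |lsum u (l.drop n) k| ^ 2 := (sq_abs _).symm
    rw [h6]
    nlinarith [sq_nonneg (|lsum u (l.drop n) k| - ζ k), sq_nonneg (|lsum u (l.drop n) k| - D k),
      sq_nonneg (ζ k - D k)]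
  have hPQ : ∀ k, (∑ i ∈ B, u i k) ^ 2 ≤ 8 * (ζ k) ^ 2 + 8 * (D k) ^ 2 := by
    intro k
    have h1 := h.posL k (hnl k)
    have h2 := h.posR k (hnl k)
    simp only at h2
    have h3 : |∑ i ∈ B, u i k| ≤ 2 * (ζ k + D k) := by
      have h4 : ∑ i ∈ B, u i k = (P k + ∑ i ∈ B, u i k) - P k := by ring
      rw [h4]
      have := abs_sub (P k + ∑ i ∈ B, u i k) (P k)
      have := h.tau0 k
      linarith
    have h5 := pow_le_pow_left₀ (abs_nonneg _) h3 2
    rw [sq_abs] at h5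
    nlinarith [sq_nonneg (ζ k - D k)]
  calc ∑ k, (|P k + lsum u (l.take n) k| + τ k) ^ 2
      ≤ ∑ k, 3 * ((lsum u (l.drop n) k) ^ 2 + (ζ k) ^ 2 + (D k) ^ 2) :=
        Finset.sum_le_sum fun k _ => hpt k
    _ = 3 * ∑ k, (lsum u (l.drop n) k) ^ 2 + 3 * ∑ k, (ζ k) ^ 2 + 3 * ∑ k, (D k) ^ 2 := by
        rw [← Finset.mul_sum, Finset.sum_add_distrib, Finset.sum_add_distrib]; ring
    _ ≤ 3 * (∑ k, (∑ i ∈ B, u i k) ^ 2 + ∑ k, ∑ i ∈ B, (u i k) ^ 2) + 3 * ∑ k, (ζ k) ^ 2 +
          3 * ∑ k, (D k) ^ 2 := by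
        have := hle n
        linarith
    _ ≤ 3 * (∑ k, (8 * (ζ k) ^ 2 + 8 * (D k) ^ 2) + ∑ k, ∑ i ∈ B, (u i k) ^ 2) +
          3 * ∑ k, (ζ k) ^ 2 + 3 * ∑ k, (D k) ^ 2 := by
        have := Finset.sum_le_sum fun k (_ : k ∈ Finset.univ) => hPQ k
        linarith
    _ = 27 * ∑ k, (ζ k) ^ 2 + 27 * ∑ k, (D k) ^ 2 + 3 * ∑ k, ∑ i ∈ B, (u i k) ^ 2 := by
        rw [Finset.sum_add_distrib, ← Finset.mul_sum, ← Finset.mul_sum]; ring
    _ ≤ 27 * (2 * Λ * d) + 27 * (8 * (400000 * R * ((R + 1) * d))) +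
          3 * (4 * ((R + 1) * d)) := by linarith
    _ = Mfin d R := by rw [Mfin, hΛ]; ring

theorem all_levels (hR : 1 ≤ R) (hd : 1 ≤ d) (hK : 3000000 * (d : ℝ) ^ 6 ≤ 2 ^ R) (J : ℕ)
    (hJ : ∀ k, lv 0 (a k) ≤ J) : ∀ n j : ℕ, j + n = J →
    ∀ (B : Finset ι) (u : ι → Fin d → ℝ) (P τ ζ D : Fin d → ℝ) (YL YR s : ℝ),
      Inv R a (16 * (1 + Real.log d)) j B u P τ ζ D YL YR s → Good (Mfin d R) B u P τ := by
  intro n
  induction n with
  | zero =>
    intro j hj B u P τ ζ D YL YR s h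
    exact base hR (fun k => by have := hJ k; omega) h
  | succ n ih =>
    intro j hj B u P τ ζ D YL YR s h
    exact step hR hd hK (ih (j + 1) (by omega)) h

theorem coord (hR : 1 ≤ R) (hd : 1 ≤ d) (hK : 3000000 * (d : ℝ) ^ 6 ≤ 2 ^ R)
    (v : ι → Fin d → ℝ) (hv : ∀ i, ∑ k, (v i k) ^ 2 ≤ 1) (hsum : ∀ k, ∑ i, v i k = 0)
    (horth : ∀ k l, k ≠ l → ∑ i, v i k * v i l = 0) :
    Good (Mfin d R) Finset.univ v (fun _ => 0) (fun _ => 0) := by
  classical
  set a : Fin d → ℝ := fun k => ∑ i, (v i k) ^ 2 with ha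
  have hlog : 0 ≤ Real.log (d : ℝ) := Real.log_natCast_nonneg d
  set J := Finset.univ.sup (fun k => lv 0 (a k)) with hJ
  have hJ' : ∀ k, lv 0 (a k) ≤ J := fun k =>
    Finset.le_sup (f := fun k => lv 0 (a k)) (Finset.mem_univ k)
  refine all_levels (a := a) hR hd hK J hJ' J 0 (by omega) Finset.univ v (fun _ => 0)
    (fun _ => 0) (fun _ => 0) (fun _ => 0) 0 0 0 ?_
  have hΛN : ∀ m, 0 ≤ 16 * (1 + Real.log (d : ℝ)) * (Nc R a m : ℝ) := fun m => by positivity
  refine
    { unorm := fun i _ => hv i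
      E := ?_
      tau0 := fun _ => le_rfl
      D0 := fun _ => le_rfl
      taulive := fun _ _ => rfl
      posL := fun k _ => by simp
      posR := fun k _ => by simp [hsum k]
      YL0 := le_rfl
      YR0 := le_rfl
      preL := fun m _ => by
        simpa using hΛN m
      preR := fun m _ => by
        simpa [hsum] using hΛN m
      zetaY := by simp
      Dsum := by simp
      budget := ?_ }
  · intro k l hk hl
    by_cases hkl : k = l
    · subst hkl
      have : ∑ i, v i k * v i k - a k / 2 ^ 0 = 0 := by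
        rw [pow_zero, div_one, ha]
        simp only [sub_eq_zero]
        exact Finset.sum_congr rfl fun i _ => by ring
      simp only [if_true]
      rw [this, abs_zero]
      positivity
    · rw [if_neg hkl, horth k l hkl, sub_zero, abs_zero]
      positivity
  · have h1 : SS R a 0 0 Finset.univ v ≤ R * Nc R a 0 := by
      unfold SS
      calc ∑ k with lv R (a k) ≤ 0, sw R (lv 0 (a k)) 0 * ∑ i, (v i k) ^ 2
          ≤ ∑ k with lv R (a k) ≤ 0, (R : ℝ) := by
            refine Finset.sum_le_sum fun k _ => ?_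
            have := sw_mul_le hR (a := a k) (j := 0) (Nat.zero_le _)
            rw [pow_zero, div_one] at this
            exact this
        _ = R * Nc R a 0 := by rw [Finset.sum_const, nsmul_eq_mul, Nc]; ring
    simp only [Finset.range_zero, Finset.sum_empty, zero_add]
    have h2 : (0 : ℝ) ≤ R * Nc R a 0 := by positivity
    nlinarith

end Coord

end Vale.Agent.P262
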