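import Vale.Agent.P262.Coord

/-!
# The Euclidean Steinitz constant is at most `C √d (1 + log d)`
-/

set_option linter.unusedSectionVars false
set_option linter.unusedVariables false

open Finset
open scoped RealInnerProductSpace

namespace Vale.Agent.P262

lemma perm_of_list {N d : ℕ} (l : List (Fin N)) (hl : l.Nodup) (hB : l.toFinset = Finset.univ) :
    ∃ π : Equiv.Perm (Fin N), ∀ (u : Fin N → Fin d → ℝ) (n : ℕ) (k : Fin d),
      ∑ i : Fin N with i.val < n, u (π i) k = lsum u (l.take n) k := by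
  classical
  have hlen : l.length = N := by
    rw [← List.toFinset_card_of_nodup hl, hB, Finset.card_univ, Fintype.card_fin]
  have hmem : ∀ x : Fin N, x ∈ l := fun x => by
    rw [← List.mem_toFinset, hB]; exact Finset.mem_univ x
  refine ⟨(finCongr hlen.symm).trans (hl.getEquivOfForallMemList l hmem), fun u n k => ?_⟩
  set π := (finCongr hlen.symm).trans (hl.getEquivOfForallMemList l hmem) with hπ
  have hget : ∀ i : Fin N, π i = l[i.val]'(by rw [hlen]; exact i.2) := by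
    intro i
    simp [hπ, List.Nodup.getEquivOfForallMemList]
  rw [lsum_eq_sum u _ (hl.sublist (List.take_sublist n l))]
  have himg : (l.take n).toFinset = (Finset.univ.filter (fun i : Fin N => i.val < n)).image π := by
    ext x
    simp only [List.mem_toFinset, Finset.mem_image, Finset.mem_filter, Finset.mem_univ, true_and]
    rw [List.mem_take_iff_getElem]
    constructor
    · rintro ⟨i, hi, hx⟩
      have hi' : i < N := by rw [← hlen]; omega
      refine ⟨⟨i, hi'⟩, by simp; omega, ?_⟩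
      rw [hget]; exact hx
    · rintro ⟨i, hi, hx⟩
      have hi' : i.val < l.length := by rw [hlen]; exact i.2
      refine ⟨i.val, by omega, ?_⟩
      rw [← hx, hget]
  rw [himg, Finset.sum_image (fun x _ y _ h => π.injective h)]

/-- squared-norm form, with explicit parameter `R` -/
theorem steinitz_R {d N R : ℕ} (hR : 1 ≤ R) (hd : 1 ≤ d) (hK : 3000000 * (d : ℝ) ^ 6 ≤ 2 ^ R)
    (v : Fin N → EuclideanSpace ℝ (Fin d)) (hv : ∀ i, ‖v i‖ ≤ 1) (hsum : ∑ i, v i = 0) :
    ∃ π : Equiv.Perm (Fin N), ∀ n : ℕ, ‖∑ i : Fin N with i.val < n, v (π i)‖ ^ 2 ≤ Mfin d R := by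
  classical
  let T : EuclideanSpace ℝ (Fin d) →ₗ[ℝ] EuclideanSpace ℝ (Fin d) :=
    { toFun := fun x => ∑ i, ⟪v i, x⟫ • v i
      map_add' := fun x y => by
        simp only [inner_add_right, add_smul, Finset.sum_add_distrib]
      map_smul' := fun c x => by
        simp only [inner_smul_right, mul_smul, Finset.smul_sum, RingHom.id_apply] }
  have hTapp : ∀ x, T x = ∑ i, ⟪v i, x⟫ • v i := fun _ => rfl
  have hT : T.IsSymmetric := by
    intro x y
    rw [hTapp, hTapp, sum_inner, inner_sum]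
    refine Finset.sum_congr rfl fun i _ => ?_
    rw [inner_smul_left, inner_smul_right, real_inner_comm x (v i)]
    simp only [conj_trivial]
    ring
  have hn : Module.finrank ℝ (EuclideanSpace ℝ (Fin d)) = d := finrank_euclideanSpace_fin
  set b := hT.eigenvectorBasis hn with hb
  set c : Fin N → Fin d → ℝ := fun i k => ⟪b k, v i⟫ with hc
  have hnorm : ∀ x : EuclideanSpace ℝ (Fin d), ∑ k, (⟪b k, x⟫ : ℝ) ^ 2 = ‖x‖ ^ 2 := by
    intro x
    rw [← b.sum_sq_norm_inner_right x]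
    refine Finset.sum_congr rfl fun k _ => ?_
    rw [Real.norm_eq_abs, sq_abs]
  have h1 : ∀ i, ∑ k, (c i k) ^ 2 ≤ 1 := by
    intro i
    rw [hnorm]
    have := norm_nonneg (v i)
    have := hv i
    nlinarith
  have h2 : ∀ k, ∑ i, c i k = 0 := by
    intro k
    simp only [hc]
    rw [← inner_sum, hsum, inner_zero_right]
  have h3 : ∀ k l, k ≠ l → ∑ i, c i k * c i l = 0 := by
    intro k l hkl
    have h4 : ∑ i, c i k * c i l = ⟪b k, T (b l)⟫ := by
      rw [hTapp, inner_sum]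
      refine Finset.sum_congr rfl fun i _ => ?_
      rw [inner_smul_right, real_inner_comm (b l) (v i)]
      simp only [hc]; ring
    rw [h4, hb, hT.apply_eigenvectorBasis hn l, inner_smul_right, ← hb]
    have : ⟪b k, b l⟫ = 0 := b.orthonormal.2 hkl
    rw [this]; simp
  obtain ⟨l, hl, hlB, hle⟩ := coord hR hd hK c h1 h2 h3
  obtain ⟨π, hπ⟩ := perm_of_list (d := d) l hl hlB
  refine ⟨π, fun n => ?_⟩
  have h5 := hle n
  refine le_trans (le_of_eq ?_) h5
  rw [← hnorm]
  refine Finset.sum_congr rfl fun k _ => ?_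
  rw [inner_sum, zero_add, add_zero, sq_abs, ← hπ c n k]

lemma exists_R {d : ℕ} (hd : 1 ≤ d) : ∃ R : ℕ, 1 ≤ R ∧ 3000000 * (d : ℝ) ^ 6 ≤ 2 ^ R ∧
    (R : ℝ) ≤ 28 * (1 + Real.log d) := by
  refine ⟨22 + 6 * (Nat.log 2 d + 1), by omega, ?_, ?_⟩
  · have h1 : (d : ℝ) ≤ 2 ^ (Nat.log 2 d + 1) := by
      have := Nat.lt_pow_succ_log_self (b := 2) (by norm_num) d
      exact_mod_cast this.le
    have h2 : (d : ℝ) ^ 6 ≤ (2 ^ (Nat.log 2 d + 1)) ^ 6 := pow_le_pow_left₀ (by positivity) h1 6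
    rw [pow_add, mul_comm 6, pow_mul]
    have h3 : (3000000 : ℝ) ≤ 2 ^ 22 := by norm_num
    have h4 : (0 : ℝ) ≤ (d : ℝ) ^ 6 := by positivity
    calc 3000000 * (d : ℝ) ^ 6 ≤ 2 ^ 22 * (d : ℝ) ^ 6 := mul_le_mul_of_nonneg_right h3 h4
      _ ≤ 2 ^ 22 * (2 ^ (Nat.log 2 d + 1)) ^ 6 := mul_le_mul_of_nonneg_left h2 (by positivity)
  · have hd' : (0 : ℝ) < d := by exact_mod_cast hd
    have h1 : ((2 : ℝ) ^ Nat.log 2 d) ≤ d := by
      have := Nat.pow_log_le_self 2 (x := d) (by omega)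
      exact_mod_cast this
    have h2 : (Nat.log 2 d : ℝ) * Real.log 2 ≤ Real.log d := by
      rw [← Real.log_pow]
      exact Real.log_le_log (by positivity) h1
    have h3 := Real.log_two_gt_d9
    have h4 : (0 : ℝ) ≤ Nat.log 2 d := by positivity
    have h5 : (Nat.log 2 d : ℝ) * (69 / 100) ≤ Real.log d := by
      refine le_trans (mul_le_mul_of_nonneg_left ?_ h4) h2
      linarith
    push_cast
    nlinarith

theorem steinitz_bound {d N : ℕ} (hd : 1 ≤ d)
    (v : Fin N → EuclideanSpace ℝ (Fin d)) (hv : ∀ i, ‖v i‖ ≤ 1) (hsum : ∑ i, v i = 0) :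
    ∃ π : Equiv.Perm (Fin N), ∀ n : ℕ, ‖∑ i : Fin N with i.val < n, v (π i)‖ ≤
      265000 * √d * (1 + Real.log d) := by
  obtain ⟨R, hR, hK, hRle⟩ := exists_R hd
  obtain ⟨π, hπ⟩ := steinitz_R hR hd hK v hv hsum
  refine ⟨π, fun n => ?_⟩
  have hlog : 0 ≤ Real.log (d : ℝ) := Real.log_natCast_nonneg d
  have hd' : (0 : ℝ) < d := by exact_mod_cast hd
  have hsd : √(d : ℝ) ^ 2 = d := Real.sq_sqrt hd'.le
  have hsd0 := Real.sqrt_nonneg (d : ℝ)
  apply le_of_sq_le_sq (h := ?_) (hb := by positivity)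
  refine (hπ n).trans ?_
  rw [mul_pow, mul_pow, hsd]
  unfold Mfin
  set L := 1 + Real.log (d : ℝ) with hL
  have hL1 : 1 ≤ L := by rw [hL]; linarith
  have hR0 : (0 : ℝ) ≤ R := by positivity
  have hR2 : (R : ℝ) * (R + 1) ≤ 28 * L * (29 * L) := by
    apply mul_le_mul hRle (by linarith) (by positivity) (by positivity)
  have hR3 : ((R : ℝ) + 1) ≤ 29 * L := by linarith
  have hLL : L ≤ L ^ 2 := by nlinarith
  have key : 54 * (16 * L) + 86400000 * (R * (R + 1)) + 12 * (R + 1) ≤ 265000 ^ 2 * L ^ 2 := by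
    nlinarith
  calc 54 * (16 * L) * (d : ℝ) + 86400000 * R * (R + 1) * d + 12 * (R + 1) * d
      = (54 * (16 * L) + 86400000 * (R * (R + 1)) + 12 * (R + 1)) * d := by ring
    _ ≤ (265000 ^ 2 * L ^ 2) * d := mul_le_mul_of_nonneg_right key hd'.le
    _ = 265000 ^ 2 * d * L ^ 2 := by ring

end Vale.Agent.P262
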