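import Mathlib

/-!
# Good orderings: concatenation, modification of coordinates, greedy ordering
-/

set_option linter.unusedSectionVars false

open Finset

namespace Vale.Agent.P262

section Good

variable {ι : Type*} [DecidableEq ι] {d : ℕ}

/-- `k`-th coordinate of the sum along a list -/
def lsum (u : ι → Fin d → ℝ) (l : List ι) (k : Fin d) : ℝ := (l.map (fun i => u i k)).sum

lemma lsum_append (u : ι → Fin d → ℝ) (l l' : List ι) (k : Fin d) :
    lsum u (l ++ l') k = lsum u l k + lsum u l' k := by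
  simp [lsum]

lemma lsum_eq_sum (u : ι → Fin d → ℝ) (l : List ι) (hl : l.Nodup) (k : Fin d) :
    lsum u l k = ∑ i ∈ l.toFinset, u i k := by
  rw [lsum, List.sum_toFinset _ hl]

/-- There is an ordering of `B` such that every prefix position, started from `P` and widened by
`τ`, has squared norm at most `M2`. -/
def Good (M2 : ℝ) (B : Finset ι) (u : ι → Fin d → ℝ) (P τ : Fin d → ℝ) : Prop :=
  ∃ l : List ι, l.Nodup ∧ l.toFinset = B ∧
    ∀ n : ℕ, ∑ k, (|P k + lsum u (l.take n) k| + τ k) ^ 2 ≤ M2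

lemma good_modify {M2 : ℝ} {B : Finset ι} {u u' : ι → Fin d → ℝ} {P τ h : Fin d → ℝ}
    (hτ : ∀ k, 0 ≤ τ k) (hh : ∀ k, ∑ i ∈ B, |u i k - u' i k| ≤ h k)
    (hg : Good M2 B u' P (fun k => τ k + h k)) : Good M2 B u P τ := by
  obtain ⟨l, hl, hB, hle⟩ := hg
  refine ⟨l, hl, hB, fun n => le_trans ?_ (hle n)⟩
  refine Finset.sum_le_sum fun k _ => ?_
  have hnd : (l.take n).Nodup := hl.sublist (List.take_sublist n l)
  have hsub : (l.take n).toFinset ⊆ B := by
    rw [← hB]
    intro i hi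
    rw [List.mem_toFinset] at hi ⊢
    exact List.mem_of_mem_take hi
  have h1 : |lsum u (l.take n) k - lsum u' (l.take n) k| ≤ h k := by
    rw [lsum_eq_sum _ _ hnd, lsum_eq_sum _ _ hnd, ← Finset.sum_sub_distrib]
    refine (Finset.abs_sum_le_sum_abs _ _).trans ?_
    exact (Finset.sum_le_sum_of_subset_of_nonneg hsub fun _ _ _ => abs_nonneg _).trans (hh k)
  have h2 : |P k + lsum u (l.take n) k| ≤ |P k + lsum u' (l.take n) k| + h k := by
    have : P k + lsum u (l.take n) k = (P k + lsum u' (l.take n) k) +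
      (lsum u (l.take n) k - lsum u' (l.take n) k) := by ring
    rw [this]
    exact (abs_add_le _ _).trans (by linarith)
  have h3 : 0 ≤ |P k + lsum u (l.take n) k| + τ k := add_nonneg (abs_nonneg _) (hτ k)
  apply pow_le_pow_left₀ h3
  simp only
  linarith

lemma good_split {M2 : ℝ} {B B₁ B₂ : Finset ι} {u : ι → Fin d → ℝ} {P τ : Fin d → ℝ}
    (hB : B₁ ∪ B₂ = B) (hd : Disjoint B₁ B₂)
    (h1 : Good M2 B₁ u P τ) (h2 : Good M2 B₂ u (fun k => P k + ∑ i ∈ B₁, u i k) τ) :
    Good M2 B u P τ := by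
  obtain ⟨l₁, hl₁, hB₁, hle₁⟩ := h1
  obtain ⟨l₂, hl₂, hB₂, hle₂⟩ := h2
  refine ⟨l₁ ++ l₂, ?_, ?_, fun n => ?_⟩
  · rw [List.nodup_append']
    refine ⟨hl₁, hl₂, ?_⟩
    intro a ha hb
    rw [← hB₁, ← hB₂] at hd
    exact (Finset.disjoint_left.mp hd) (List.mem_toFinset.mpr ha) (List.mem_toFinset.mpr hb)
  · rw [List.toFinset_append, hB₁, hB₂, hB]
  · rcases le_total n l₁.length with hn | hn
    · have : (l₁ ++ l₂).take n = l₁.take n := by
        rw [List.take_append]
        simp [Nat.sub_eq_zero_of_le hn]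
      rw [this]
      exact hle₁ n
    · have : (l₁ ++ l₂).take n = l₁ ++ l₂.take (n - l₁.length) := by
        rw [List.take_append, List.take_of_length_le hn]
      rw [this]
      refine le_trans (le_of_eq ?_) (hle₂ (n - l₁.length))
      refine Finset.sum_congr rfl fun k _ => ?_
      rw [lsum_append, lsum_eq_sum u l₁ hl₁, hB₁, add_assoc]

/-- greedy ordering: the remaining sums are controlled in `ℓ²` -/
lemma greedy (u : ι → Fin d → ℝ) : ∀ (n : ℕ) (B : Finset ι), B.card = n →
    ∃ l : List ι, l.Nodup ∧ l.toFinset = B ∧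
    ∀ m : ℕ, ∑ k, (lsum u (l.drop m) k) ^ 2 ≤
      ∑ k, (∑ i ∈ B, u i k) ^ 2 + ∑ k, ∑ i ∈ B, (u i k) ^ 2 := by
  intro n
  induction n with
  | zero =>
    intro B hB
    rw [Finset.card_eq_zero] at hB
    subst hB
    exact ⟨[], List.nodup_nil, rfl, fun m => by simp [lsum]⟩
  | succ n ih =>
    intro B hB
    have hne : B.Nonempty := Finset.card_pos.mp (by omega)
    obtain ⟨v, hv, hvs⟩ : ∃ v ∈ B, 0 ≤ ∑ k, u v k * ∑ i ∈ B, u i k := by
      apply Finset.exists_le_of_sum_le hne
      rw [Finset.sum_const_zero, Finset.sum_comm]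
      refine Finset.sum_nonneg fun k _ => ?_
      rw [← Finset.sum_mul]
      exact mul_self_nonneg _
    obtain ⟨l, hl, hlB, hle⟩ := ih (B.erase v) (by rw [Finset.card_erase_of_mem hv, hB]; rfl)
    have hvl : v ∉ l := by
      intro h
      have := List.mem_toFinset.mpr h
      rw [hlB] at this
      exact Finset.notMem_erase v B this
    have hfull : (v :: l).toFinset = B := by
      rw [List.toFinset_cons, hlB, Finset.insert_erase hv]
    refine ⟨v :: l, List.nodup_cons.mpr ⟨hvl, hl⟩, hfull, ?_⟩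
    intro m
    cases m with
    | zero =>
      rw [List.drop_zero]
      have : ∀ k, lsum u (v :: l) k = ∑ i ∈ B, u i k := by
        intro k
        rw [lsum_eq_sum u _ (List.nodup_cons.mpr ⟨hvl, hl⟩), hfull]
      simp only [this]
      have : 0 ≤ ∑ k, ∑ i ∈ B, (u i k) ^ 2 :=
        Finset.sum_nonneg fun _ _ => Finset.sum_nonneg fun _ _ => sq_nonneg _
      linarith
    | succ m =>
      rw [List.drop_succ_cons]
      refine (hle m).trans ?_
      have h1 : ∀ k, ∑ i ∈ B.erase v, u i k = (∑ i ∈ B, u i k) - u v k := by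
        intro k
        rw [← Finset.add_sum_erase B _ hv]; ring
      have h2 : ∀ k, ∑ i ∈ B.erase v, (u i k) ^ 2 = (∑ i ∈ B, (u i k) ^ 2) - (u v k) ^ 2 := by
        intro k
        rw [← Finset.add_sum_erase B _ hv]; ring
      simp only [h1, h2]
      rw [← Finset.sum_add_distrib, ← Finset.sum_add_distrib]
      have h3 : ∑ k, ((∑ i ∈ B, u i k - u v k) ^ 2 + (∑ i ∈ B, (u i k) ^ 2 - (u v k) ^ 2))
          = ∑ k, ((∑ i ∈ B, u i k) ^ 2 + ∑ i ∈ B, (u i k) ^ 2)
            - 2 * ∑ k, u v k * ∑ i ∈ B, u i k := by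
        rw [Finset.mul_sum, ← Finset.sum_sub_distrib]
        refine Finset.sum_congr rfl fun k _ => ?_
        ring
      rw [h3]
      linarith

end Good

end Vale.Agent.P262
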