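import Vale.Agent.P262.XBounds
import Vale.Agent.P262.Good

/-!
# Invariants of the dyadic scheme
-/

set_option linter.unusedSectionVars false
set_option linter.unusedVariables false

open Finset

namespace Vale.Agent.P262

section Inv

variable {ι : Type*} [Fintype ι] [DecidableEq ι] {d : ℕ}

/-- weighted mass of the directions that are no longer live at level `j`, weights of level `j'` -/
noncomputable def SS (R : ℕ) (a : Fin d → ℝ) (j j' : ℕ) (B : Finset ι) (u : ι → Fin d → ℝ) : ℝ :=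
  ∑ k with lv R (a k) ≤ j, sw R (lv 0 (a k)) j' * ∑ i ∈ B, (u i k) ^ 2

/-- prefix condition on an endpoint: `F` is the position, `Y` the recorded energy -/
def PreC (R : ℕ) (a : Fin d → ℝ) (Λ : ℝ) (j : ℕ) (F : Fin d → ℝ) (Y : ℝ) : Prop :=
  ∀ m, j ≤ m → Y + ∑ k with j < lv R (a k) ∧ lv R (a k) ≤ m, (F k) ^ 2 ≤ Λ * Nc R a m

/-- nonlive position condition on an endpoint -/
def PosC (R : ℕ) (a : Fin d → ℝ) (j : ℕ) (F τ ζ D : Fin d → ℝ) : Prop :=
  ∀ k, lv R (a k) ≤ j → |F k| + τ k ≤ ζ k + D k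

structure Inv (R : ℕ) (a : Fin d → ℝ) (Λ : ℝ) (j : ℕ) (B : Finset ι) (u : ι → Fin d → ℝ)
    (P τ ζ D : Fin d → ℝ) (YL YR s : ℝ) : Prop where
  unorm : ∀ i ∈ B, ∑ k, (u i k) ^ 2 ≤ 1
  E : ECond a j B u
  tau0 : ∀ k, 0 ≤ τ k
  D0 : ∀ k, 0 ≤ D k
  taulive : ∀ k, j < lv R (a k) → τ k = 0
  posL : PosC R a j P τ ζ D
  posR : PosC R a j (fun k => P k + ∑ i ∈ B, u i k) τ ζ D
  YL0 : 0 ≤ YL
  YR0 : 0 ≤ YR
  preL : PreC R a Λ j P YL
  preR : PreC R a Λ j (fun k => P k + ∑ i ∈ B, u i k) YR
  zetaY : ∑ k with lv R (a k) ≤ j, (ζ k) ^ 2 ≤ YL + YR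
  Dsum : ∑ k with lv R (a k) ≤ j, (D k) ^ 2 / cw R (lv R (a k)) (lv 0 (a k)) j ≤ s
  budget : s + 120000 * SS R a j j B u ≤
    400000 * R * (∑ i ∈ Finset.range j, (nc R a i : ℝ) + Nc R a j)

structure Pre (R : ℕ) (a : Fin d → ℝ) (Λ : ℝ) (j : ℕ) (B : Finset ι) (u : ι → Fin d → ℝ)
    (P τ ζ D : Fin d → ℝ) (YL YR s : ℝ) : Prop where
  unorm : ∀ i ∈ B, ∑ k, (u i k) ^ 2 ≤ 1
  E : ECond a (j + 1) B u
  tau0 : ∀ k, 0 ≤ τ k
  D0 : ∀ k, 0 ≤ D k
  taulive : ∀ k, j < lv R (a k) → τ k = 0
  posL : PosC R a j P τ ζ D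
  posR : PosC R a j (fun k => P k + ∑ i ∈ B, u i k) τ ζ D
  YL0 : 0 ≤ YL
  YR0 : 0 ≤ YR
  preL : PreC R a Λ j P YL
  preR : PreC R a Λ j (fun k => P k + ∑ i ∈ B, u i k) YR
  zetaY : ∑ k with lv R (a k) ≤ j, (ζ k) ^ 2 ≤ YL + YR
  Dsum : ∑ k with lv R (a k) ≤ j, (D k) ^ 2 / cw R (lv R (a k)) (lv 0 (a k)) (j + 1) ≤ s
  budget : s + 120000 * SS R a j (j + 1) B u + 240000 * R * (Nc R a (j + 1) - Nc R a j) ≤
    400000 * R * (∑ i ∈ Finset.range (j + 1), (nc R a i : ℝ) + Nc R a (j + 1))

lemma filter_succ (R : ℕ) (a : Fin d → ℝ) (j : ℕ) (f : Fin d → ℝ) :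
    ∑ k with lv R (a k) ≤ j + 1, f k =
      ∑ k with lv R (a k) ≤ j, f k + ∑ k with lv R (a k) = j + 1, f k := by
  rw [Finset.sum_filter, Finset.sum_filter, Finset.sum_filter, ← Finset.sum_add_distrib]
  refine Finset.sum_congr rfl fun k _ => ?_
  by_cases h1 : lv R (a k) ≤ j
  · have h2 : lv R (a k) ≤ j + 1 := by omega
    have h3 : ¬ lv R (a k) = j + 1 := by omega
    simp [h1, h2, h3]
  · by_cases h4 : lv R (a k) = j + 1
    · simp [h4]
    · have h2 : ¬ lv R (a k) ≤ j + 1 := by omega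
      simp [h1, h2, h4]

lemma filter_leave (R : ℕ) (a : Fin d → ℝ) (j m : ℕ) (hm : j + 1 ≤ m) (f : Fin d → ℝ) :
    ∑ k with j < lv R (a k) ∧ lv R (a k) ≤ m, f k =
      ∑ k with lv R (a k) = j + 1, f k +
        ∑ k with j + 1 < lv R (a k) ∧ lv R (a k) ≤ m, f k := by
  rw [Finset.sum_filter, Finset.sum_filter, Finset.sum_filter, ← Finset.sum_add_distrib]
  refine Finset.sum_congr rfl fun k _ => ?_
  by_cases h4 : lv R (a k) = j + 1
  · have h2 : j + 1 ≤ m := hm
    simp [h4, h2]
  · by_cases h1 : j < lv R (a k) ∧ lv R (a k) ≤ m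
    · have h3 : j + 1 < lv R (a k) ∧ lv R (a k) ≤ m := by omega
      simp [h1, h3, h4]
    · have h3 : ¬ (j + 1 < lv R (a k) ∧ lv R (a k) ≤ m) := by omega
      rw [if_neg h1, if_neg h3, if_neg h4]; simp

lemma card_leave (R : ℕ) (a : Fin d → ℝ) (j : ℕ) :
    ((Finset.univ.filter (fun k => lv R (a k) = j + 1)).card : ℝ) =
      Nc R a (j + 1) - Nc R a j := by
  have h := Nc_sub R a (Nat.le_succ j)
  have h2 : Finset.univ.filter (fun k => lv R (a k) = j + 1) =
      Finset.univ.filter (fun k => j < lv R (a k) ∧ lv R (a k) ≤ j + 1) := by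
    ext k
    simp only [Finset.mem_filter, Finset.mem_univ, true_and]
    omega
  rw [h2]
  simp only [Nat.succ_eq_add_one] at h
  linarith

theorem leave {R : ℕ} (hR : 1 ≤ R) {a : Fin d → ℝ} {Λ : ℝ} {j : ℕ} {B : Finset ι}
    {u : ι → Fin d → ℝ} {P τ ζ D : Fin d → ℝ} {YL YR s : ℝ}
    (hK : 3000000 * (d : ℝ) ^ 6 ≤ 2 ^ R)
    (h : Pre R a Λ j B u P τ ζ D YL YR s) (hDlive : ∀ k, j < lv R (a k) → D k = 0) :
    Inv R a Λ (j + 1) B u P τ
      (fun k => if lv R (a k) = j + 1 then max |P k| |P k + ∑ i ∈ B, u i k| else ζ k) D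
      (YL + ∑ k with lv R (a k) = j + 1, (P k) ^ 2)
      (YR + ∑ k with lv R (a k) = j + 1, (P k + ∑ i ∈ B, u i k) ^ 2) s := by
  refine
    { unorm := h.unorm
      E := h.E
      tau0 := h.tau0
      D0 := h.D0
      taulive := fun k hk => h.taulive k (by omega)
      posL := ?_
      posR := ?_
      YL0 := add_nonneg h.YL0 (Finset.sum_nonneg fun _ _ => sq_nonneg _)
      YR0 := add_nonneg h.YR0 (Finset.sum_nonneg fun _ _ => sq_nonneg _)
      preL := ?_
      preR := ?_
      zetaY := ?_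
      Dsum := ?_
      budget := ?_ }
  · intro k hk
    by_cases h1 : lv R (a k) = j + 1
    · rw [h.taulive k (by omega)]
      simp only [h1, if_true]
      have := le_max_left |P k| |P k + ∑ i ∈ B, u i k|
      have := h.D0 k
      linarith
    · simp only [h1, if_false]
      exact h.posL k (by omega)
  · intro k hk
    by_cases h1 : lv R (a k) = j + 1
    · rw [h.taulive k (by omega)]
      simp only [h1, if_true]
      have := le_max_right |P k| |P k + ∑ i ∈ B, u i k|
      have := h.D0 k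
      linarith
    · simp only [h1, if_false]
      exact h.posR k (by omega)
  · intro m hm
    have := h.preL m (by omega)
    rw [filter_leave R a j m hm] at this
    linarith
  · intro m hm
    have := h.preR m (by omega)
    rw [filter_leave R a j m hm] at this
    linarith
  · rw [filter_succ]
    have h1 : ∑ k with lv R (a k) ≤ j,
        (if lv R (a k) = j + 1 then max |P k| |P k + ∑ i ∈ B, u i k| else ζ k) ^ 2 =
        ∑ k with lv R (a k) ≤ j, (ζ k) ^ 2 := by
      refine Finset.sum_congr rfl fun k hk => ?_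
      have := (Finset.mem_filter.mp hk).2
      rw [if_neg (by omega)]
    have h2 : ∑ k with lv R (a k) = j + 1,
        (if lv R (a k) = j + 1 then max |P k| |P k + ∑ i ∈ B, u i k| else ζ k) ^ 2 ≤
        ∑ k with lv R (a k) = j + 1, (P k) ^ 2 +
        ∑ k with lv R (a k) = j + 1, (P k + ∑ i ∈ B, u i k) ^ 2 := by
      rw [← Finset.sum_add_distrib]
      refine Finset.sum_le_sum fun k hk => ?_
      rw [if_pos (Finset.mem_filter.mp hk).2]
      rcases max_cases |P k| |P k + ∑ i ∈ B, u i k| with ⟨h3, _⟩ | ⟨h3, _⟩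
      · rw [h3, sq_abs]; nlinarith [sq_nonneg (P k + ∑ i ∈ B, u i k)]
      · rw [h3, sq_abs]; nlinarith [sq_nonneg (P k)]
    have := h.zetaY
    linarith
  · rw [filter_succ]
    have h1 : ∑ k with lv R (a k) = j + 1,
        (D k) ^ 2 / cw R (lv R (a k)) (lv 0 (a k)) (j + 1) = 0 := by
      refine Finset.sum_eq_zero fun k hk => ?_
      have := (Finset.mem_filter.mp hk).2
      rw [hDlive k (by omega)]
      simp
    rw [h1, add_zero]
    exact h.Dsum
  · have h1 : SS R a (j + 1) (j + 1) B u ≤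
        SS R a j (j + 1) B u + 2 * R * (Nc R a (j + 1) - Nc R a j) := by
      unfold SS
      rw [filter_succ, ← card_leave]
      apply add_le_add le_rfl
      calc ∑ k with lv R (a k) = j + 1, sw R (lv 0 (a k)) (j + 1) * ∑ i ∈ B, (u i k) ^ 2
          ≤ ∑ k with lv R (a k) = j + 1, (2 * R : ℝ) := by
            refine Finset.sum_le_sum fun k hk => ?_
            have hk' := (Finset.mem_filter.mp hk).2
            have hd := dpos_of k
            have hlive : j < lv R (a k) := by omega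
            have hmu := mu_ge hlive
            have hhalf : a k / 2 ^ (j + 1) = (a k / 2 ^ j) / 2 := by
              rw [pow_succ]; field_simp
            have hd6 : (1 : ℝ) ≤ (d : ℝ) ^ 6 := one_le_pow₀ hd
            have hd26 : (d : ℝ) ^ 2 ≤ (d : ℝ) ^ 6 := pow_le_pow_right₀ hd (by norm_num)
            set μ := a k / 2 ^ (j + 1) with hμ
            have hμ1 : 1500000 * (d : ℝ) ^ 6 ≤ μ := by rw [hhalf]; linarith
            have hμ2 : (20 * (d : ℝ)) ^ 2 ≤ μ := by nlinarith
            have hμ0 : 0 < μ := by nlinarith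
            -- nondeep at level `j+1`
            have hnd : j + 1 < lv 0 (a k) := by
              by_contra hcon
              push Not at hcon
              have h3 := lt_of_lv_le hcon
              rw [pow_zero, one_mul] at h3
              have : μ < 1 := by rw [hμ, div_lt_one (by positivity)]; exact h3
              nlinarith
            have h4 := h.E k k hnd hnd
            simp only [if_true, min_self] at h4
            rw [← hμ] at h4
            have h5 : 20 * (d : ℝ) ≤ √μ := by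
              rw [Real.le_sqrt (by positivity) hμ0.le]; exact hμ2
            have h6 : √μ * √μ = μ := Real.mul_self_sqrt hμ0.le
            have h7 : 20 * (d : ℝ) * √μ ≤ μ := by
              have := Real.sqrt_nonneg μ
              nlinarith
            have h8 : ∑ i ∈ B, (u i k) ^ 2 ≤ 2 * μ := by
              have h9 : ∑ i ∈ B, (u i k) ^ 2 = ∑ i ∈ B, u i k * u i k :=
                Finset.sum_congr rfl fun i _ => by ring
              rw [h9]
              have := (abs_le.mp h4).2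
              linarith
            have h10 := sw_mul_le hR (a := a k) (j := j + 1) hnd.le
            rw [← hμ] at h10
            have h11 := sw_pos hR (lv 0 (a k)) (j + 1)
            calc sw R (lv 0 (a k)) (j + 1) * ∑ i ∈ B, (u i k) ^ 2
                ≤ sw R (lv 0 (a k)) (j + 1) * (2 * μ) := mul_le_mul_of_nonneg_left h8 h11.le
              _ = 2 * (sw R (lv 0 (a k)) (j + 1) * μ) := by ring
              _ ≤ 2 * R := by linarith
        _ = 2 * R * ((Finset.univ.filter (fun k => lv R (a k) = j + 1)).card : ℝ) := by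
            rw [Finset.sum_const, nsmul_eq_mul]; ring
    have := h.budget
    linarith

end Inv

end Vale.Agent.P262
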