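import Vale.Agent.P262.StepB

/-!
# One step of the dyadic scheme
-/

set_option linter.unusedSectionVars false
set_option linter.unusedVariables false

open Finset

namespace Vale.Agent.P262

section Step

variable {ι : Type*} [Fintype ι] [DecidableEq ι] {d : ℕ} {R : ℕ} {a : Fin d → ℝ} {j : ℕ}

lemma Lam_le (hd : 1 ≤ d) : 16 * (1 + Real.log d) ≤ 16 * (d : ℝ) := by
  have hd' : (0 : ℝ) < d := by exact_mod_cast hd
  have := Real.log_le_sub_one_of_pos hd'
  linarith

lemma endpoint_le (hd : 1 ≤ d) {F : Fin d → ℝ} {Y : ℝ} (hY : 0 ≤ Y)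
    (h : PreC R a (16 * (1 + Real.log d)) j F Y) (k : Fin d) (hk : j < lv R (a k)) :
    |F k| ≤ 4 * d := by
  have h1 := h (lv R (a k)) hk.le
  have h2 : (F k) ^ 2 ≤ ∑ k' with j < lv R (a k') ∧ lv R (a k') ≤ lv R (a k), (F k') ^ 2 :=
    Finset.single_le_sum (f := fun k' => (F k') ^ 2) (fun _ _ => sq_nonneg _)
      (Finset.mem_filter.mpr ⟨Finset.mem_univ _, hk, le_rfl⟩)
  have h3 : (Nc R a (lv R (a k)) : ℝ) ≤ d := by exact_mod_cast Nc_le R a _
  have h4 := Lam_le hd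
  have h5 : (0 : ℝ) ≤ Nc R a (lv R (a k)) := by positivity
  have hd' : (0 : ℝ) ≤ d := by positivity
  have h6 : 16 * (1 + Real.log d) * (Nc R a (lv R (a k)) : ℝ) ≤ 16 * d * d := by
    calc 16 * (1 + Real.log d) * (Nc R a (lv R (a k)) : ℝ)
        ≤ 16 * d * (Nc R a (lv R (a k)) : ℝ) := mul_le_mul_of_nonneg_right h4 h5
      _ ≤ 16 * d * d := mul_le_mul_of_nonneg_left h3 (by positivity)
  apply abs_le_of_sq_le_sq _ (by positivity)
  nlinarith

lemma sum_child {B B1 B2 : Finset ι} {ε : ι → ℝ} (hε : ∀ i, ε i = 1 ∨ ε i = -1) (x : ι → ℝ)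
    (h1 : B1 = B.filter (fun i => ε i = 1)) (h2 : B2 = B.filter (fun i => ¬ ε i = 1))
    (f : ι → ℝ) :
    ∑ i ∈ B1, f i = (∑ i ∈ B, f i + 1 * (er B ε x f + ∑ i ∈ B, x i * f i)) / 2 ∧
    ∑ i ∈ B2, f i = (∑ i ∈ B, f i + (-1) * (er B ε x f + ∑ i ∈ B, x i * f i)) / 2 := by
  have h3 : er B ε x f + ∑ i ∈ B, x i * f i = ∑ i ∈ B, ε i * f i := by
    unfold er
    rw [← Finset.sum_add_distrib]
    refine Finset.sum_congr rfl fun i _ => ?_
    ring
  have h4 : ∑ i ∈ B, ε i * f i = ∑ i ∈ B1, f i - ∑ i ∈ B2, f i := by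
    rw [h1, h2, ← Finset.sum_filter_add_sum_filter_not B (fun i => ε i = 1) (fun i => ε i * f i)]
    have h5 : ∑ i ∈ B with ε i = 1, ε i * f i = ∑ i ∈ B with ε i = 1, f i := by
      refine Finset.sum_congr rfl fun i hi => ?_
      rw [(Finset.mem_filter.mp hi).2, one_mul]
    have h6 : ∑ i ∈ B with ¬ ε i = 1, ε i * f i = - ∑ i ∈ B with ¬ ε i = 1, f i := by
      rw [← Finset.sum_neg_distrib]
      refine Finset.sum_congr rfl fun i hi => ?_
      have := (Finset.mem_filter.mp hi).2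
      rcases hε i with h | h
      · exact absurd h this
      · rw [h]; ring
    rw [h5, h6]; ring
  have h5 : ∑ i ∈ B, f i = ∑ i ∈ B1, f i + ∑ i ∈ B2, f i := by
    rw [h1, h2, Finset.sum_filter_add_sum_filter_not]
  rw [h3, h4, h5]
  constructor <;> ring

lemma budget_arith {s Sd St R' n Z N N' SS' : ℝ} (hR' : 0 ≤ R') (hn : 0 ≤ n)
    (hbud : s + 120000 * (St + Sd) ≤ 400000 * R' * (Z + N))
    (hSS : SS' ≤ St + 67 / 100 * Sd + 3 * R' * n) (hΔ : N ≤ N') (hSd : 0 ≤ Sd) :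
    (s + 36024 * Sd + 24 * R' * n) + 120000 * SS' + 240000 * R' * (N' - N) ≤
      400000 * R' * (Z + n + N') := by
  have h1 : 0 ≤ R' * (N' - N) := mul_nonneg hR' (by linarith)
  have h2 : 0 ≤ R' * n := mul_nonneg hR' hn
  have h3 : 400000 * R' * (Z + n + N') =
      400000 * R' * (Z + N) + 400000 * (R' * n) + 400000 * (R' * (N' - N)) := by ring
  have h4 : 240000 * R' * (N' - N) = 240000 * (R' * (N' - N)) := by ring
  have h5 : 3 * R' * n = 3 * (R' * n) := by ring
  have h6 : 24 * R' * n = 24 * (R' * n) := by ring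
  rw [h3, h4, h6]
  rw [h5] at hSS
  linarith

lemma mass_child (hR : 1 ≤ R) (hd1 : (1 : ℝ) ≤ d) (hK : 3000000 * (d : ℝ) ^ 6 ≤ 2 ^ R)
    {B B' : Finset ι} {u u' : ι → Fin d → ℝ} {G m : Fin d → ℝ} {ε : ι → ℝ}
    (hu' : ∀ i ∈ B, ∑ k, (u' i k) ^ 2 ≤ 1) (hE : ECond a j B u)
    (hm : ∀ k, m k = ∑ i ∈ B, (u i k) ^ 2)
    (hmu : ∀ k, ∑ i ∈ B, (u' i k) ^ 2 ≤ m k)
    (hG : ∀ k, j < lv R (a k) → |G k| ≤ 8 * d)
    (e1 : ∑ k with lv R (a k) ≤ j ∧ j < lv 0 (a k),
      (er B ε (xx R a j G u') (fun i => u' i k * u' i k)) ^ 2 ≤ 30 * nc R a j)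
    (e2 : ∑ k with lv 0 (a k) ≤ j, kw R (lv 0 (a k)) j *
          ((er B ε (xx R a j G u') (fun i => u' i k * u' i k)) ^ 2 / m k) ≤
        30 * (1 / 3000) * ∑ k with lv 0 (a k) ≤ j, kw R (lv 0 (a k)) j * m k)
    (s : ℝ) (hs : |s| = 1) (hB' : ∀ f : ι → ℝ, ∑ i ∈ B', f i =
      (∑ i ∈ B, f i + s * (er B ε (xx R a j G u') f + ∑ i ∈ B, xx R a j G u' i * f i)) / 2) :
    SS R a j (j + 1) B' u' ≤
      ∑ k with lv R (a k) ≤ j ∧ j < lv 0 (a k), sw R (lv 0 (a k)) j * m k +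
      67 / 100 * ∑ k with lv 0 (a k) ≤ j, sw R (lv 0 (a k)) j * m k + 3 * R * nc R a j := by
  have hm0 : ∀ k, 0 ≤ m k := fun k => by rw [hm]; exact Finset.sum_nonneg fun _ _ => sq_nonneg _
  have hd6 : (1 : ℝ) ≤ (d : ℝ) ^ 6 := one_le_pow₀ hd1
  have hd2 : (d : ℝ) ^ 2 ≤ (d : ℝ) ^ 6 := pow_le_pow_right₀ hd1 (by norm_num)
  have hd3 : (d : ℝ) ^ 3 ≤ (d : ℝ) ^ 6 := pow_le_pow_right₀ hd1 (by norm_num)
  have h2R : (0 : ℝ) < 2 ^ R := by positivity
  have hx1 : 8 * (d : ℝ) ^ 2 / 2 ^ R ≤ 1 / 100 := by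
    rw [div_le_iff₀ h2R]; nlinarith
  set x := xx R a j G u' with hxdef
  set er2 : Fin d → ℝ := fun k => er B ε x (fun i => u' i k * u' i k) with her2
  set xt : Fin d → ℝ := fun k => ∑ i ∈ B, x i * (u' i k * u' i k) with hxt
  have hxt' : ∀ k, |xt k| ≤ 8 * (d : ℝ) ^ 2 / 2 ^ R * m k := by
    intro k
    calc |xt k| ≤ ∑ i ∈ B, |x i * (u' i k * u' i k)| := Finset.abs_sum_le_sum_abs _ _
      _ ≤ ∑ i ∈ B, 8 * (d : ℝ) ^ 2 / 2 ^ R * (u' i k) ^ 2 := by
          refine Finset.sum_le_sum fun i hi => ?_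
          rw [abs_mul, abs_mul_self]
          have := xx_le hu' hG hi
          rw [← hxdef] at this
          have h5 : 0 ≤ u' i k * u' i k := mul_self_nonneg _
          calc |x i| * (u' i k * u' i k) ≤ 8 * (d : ℝ) ^ 2 / 2 ^ R * (u' i k * u' i k) :=
                mul_le_mul_of_nonneg_right this h5
            _ = _ := by ring
      _ = 8 * (d : ℝ) ^ 2 / 2 ^ R * ∑ i ∈ B, (u' i k) ^ 2 := by rw [Finset.mul_sum]
      _ ≤ _ := mul_le_mul_of_nonneg_left (hmu k) (by positivity)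
  unfold SS
  refine mass_bound (er2 := er2) (xt := xt) (m := m) hR hm0 ?_ e1 ?_ ?_ ?_ ?_
  · intro k
    rw [hB']
    apply div_le_div_of_nonneg_right _ (by norm_num)
    have h1 : er B ε x (fun i => (u' i k) ^ 2) = er2 k := by
      simp only [her2]
      congr 1
      funext i; ring
    have h2 : ∑ i ∈ B, x i * (u' i k) ^ 2 = xt k := by
      simp only [hxt]
      refine Finset.sum_congr rfl fun i _ => ?_
      ring
    rw [h1, h2]
    have h3 : s * (er2 k + xt k) ≤ |er2 k| + |xt k| := by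
      refine (le_abs_self _).trans ?_
      rw [abs_mul, hs, one_mul]
      exact abs_add_le _ _
    have := hmu k
    linarith
  · refine e2.trans (le_of_eq ?_)
    norm_num
  · intro k hk
    have h3 : ∀ i ∈ B, u' i k = 0 := by
      intro i hi
      have h4 : (u' i k) ^ 2 ≤ 0 := by
        calc (u' i k) ^ 2 ≤ ∑ i ∈ B, (u' i k) ^ 2 :=
              Finset.single_le_sum (f := fun i => (u' i k) ^ 2) (fun _ _ => sq_nonneg _) hi
          _ ≤ m k := hmu k
          _ = 0 := hk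
      exact pow_eq_zero_iff (by norm_num) |>.mp (le_antisymm h4 (sq_nonneg _))
    simp only [her2, er]
    refine Finset.sum_eq_zero fun i hi => ?_
    rw [h3 i hi]; ring
  · intro k hk hk2
    have h1 := hxt' k
    have h2 := A_le hE k k hk2 hk2
    have h3 : m k ≤ 21 * d * (a k / 2 ^ j) := by
      have : m k = ∑ i ∈ B, u i k * u i k := by
        rw [hm]; exact Finset.sum_congr rfl fun i _ => by ring
      rw [this]
      exact (le_abs_self _).trans h2
    have h4 := sw_mul_le hR (a := a k) (j := j) hk2.le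
    have h5 := sw_pos hR (lv 0 (a k)) j
    have h6 : 168 * (d : ℝ) ^ 3 / 2 ^ R ≤ 1 / 10 := by
      rw [div_le_iff₀ h2R]; nlinarith
    calc sw R (lv 0 (a k)) j * |xt k|
        ≤ sw R (lv 0 (a k)) j * (8 * (d : ℝ) ^ 2 / 2 ^ R * (21 * d * (a k / 2 ^ j))) := by
          apply mul_le_mul_of_nonneg_left _ h5.le
          exact h1.trans (mul_le_mul_of_nonneg_left h3 (by positivity))
      _ = (168 * (d : ℝ) ^ 3 / 2 ^ R) * (sw R (lv 0 (a k)) j * (a k / 2 ^ j)) := by ring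
      _ ≤ (168 * (d : ℝ) ^ 3 / 2 ^ R) * R := mul_le_mul_of_nonneg_left h4 (by positivity)
      _ ≤ 1 / 10 * R := mul_le_mul_of_nonneg_right h6 (by positivity)
      _ = R / 10 := by ring
  · intro k hk
    have h1 := hxt' k
    have h2 := mul_le_mul_of_nonneg_right hx1 (hm0 k)
    linarith

/-- the new midpoint satisfies the prefix condition -/
lemma pre_mid {mid GX e : Fin d → ℝ} {Y : ℝ}
    (hmid : ∀ k, mid k = (GX k + e k) / 2)
    (hlive : ∀ k, j < lv R (a k) → (GX k) ^ 2 ≤ 1 / 100)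
    (e4 : ∑ k, rw' R a j k * (e k) ^ 2 ≤ 30 * (1 + Real.log d))
    (hY : Y ≤ 16 * (1 + Real.log (d : ℝ)) * Nc R a j) :
    PreC R a (16 * (1 + Real.log (d : ℝ))) j mid Y := by
  have hlog : 0 ≤ Real.log (d : ℝ) := Real.log_natCast_nonneg d
  have hmidw : ∑ k, rw' R a j k * (mid k) ^ 2 ≤ 16 * (1 + Real.log (d : ℝ)) := by
    have h1 : ∀ k, rw' R a j k * (mid k) ^ 2 ≤
        1 / 200 * rw' R a j k + 1 / 2 * (rw' R a j k * (e k) ^ 2) := by
      intro k
      by_cases hk : j < lv R (a k)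
      · have h2 := hlive k hk
        have h3 : (mid k) ^ 2 ≤ 1 / 200 + 1 / 2 * (e k) ^ 2 := by
          rw [hmid]
          nlinarith [sq_nonneg (GX k - e k)]
        have := mul_le_mul_of_nonneg_left h3 (rw'_nonneg R a j k)
        linarith
      · have : rw' R a j k = 0 := by unfold rw'; rw [if_neg hk]
        rw [this]; simp
    calc ∑ k, rw' R a j k * (mid k) ^ 2
        ≤ ∑ k, (1 / 200 * rw' R a j k + 1 / 2 * (rw' R a j k * (e k) ^ 2)) :=
          Finset.sum_le_sum fun k _ => h1 k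
      _ = 1 / 200 * ∑ k, rw' R a j k + 1 / 2 * ∑ k, rw' R a j k * (e k) ^ 2 := by
          rw [Finset.sum_add_distrib, Finset.mul_sum, Finset.mul_sum]
      _ ≤ 1 / 200 * (1 + Real.log d) + 1 / 2 * (30 * (1 + Real.log d)) := by
          have := sum_rw'_le R a j
          linarith
      _ ≤ 16 * (1 + Real.log (d : ℝ)) := by linarith
  intro m' hm'
  have h1 := prefix_le R a j m' hm' mid
  have h2 : (0 : ℝ) ≤ (Nc R a m' : ℝ) - Nc R a j := by
    have := Nc_sub R a hm'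
    have h2 : (0 : ℝ) ≤ ((Finset.univ.filter (fun k => j < lv R (a k) ∧
      lv R (a k) ≤ m')).card : ℝ) := by positivity
    linarith
  have h3 := mul_le_mul_of_nonneg_left hmidw h2
  have h4 : ((Nc R a m' : ℝ) - Nc R a j) * (16 * (1 + Real.log (d : ℝ))) =
    16 * (1 + Real.log (d : ℝ)) * Nc R a m' - 16 * (1 + Real.log (d : ℝ)) * Nc R a j := by ring
  linarith

theorem step (hR : 1 ≤ R) (hd : 1 ≤ d) (hK : 3000000 * (d : ℝ) ^ 6 ≤ 2 ^ R) {M2 : ℝ}
    (IH : ∀ (B : Finset ι) (u : ι → Fin d → ℝ) (P τ ζ D : Fin d → ℝ) (YL YR s : ℝ),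
      Inv R a (16 * (1 + Real.log d)) (j + 1) B u P τ ζ D YL YR s → Good M2 B u P τ)
    {B : Finset ι} {u : ι → Fin d → ℝ} {P τ ζ D : Fin d → ℝ} {YL YR s : ℝ}
    (h : Inv R a (16 * (1 + Real.log d)) j B u P τ ζ D YL YR s) : Good M2 B u P τ := by
  classical
  have hd1 : (1 : ℝ) ≤ d := by exact_mod_cast hd
  have hd6 : (1 : ℝ) ≤ (d : ℝ) ^ 6 := one_le_pow₀ hd1
  have hd2 : (d : ℝ) ^ 2 ≤ (d : ℝ) ^ 6 := pow_le_pow_right₀ hd1 (by norm_num)
  have hd3 : (d : ℝ) ^ 3 ≤ (d : ℝ) ^ 6 := pow_le_pow_right₀ hd1 (by norm_num)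
  have hd5 : (d : ℝ) ^ 5 ≤ (d : ℝ) ^ 6 := pow_le_pow_right₀ hd1 (by norm_num)
  have h2R : (0 : ℝ) < 2 ^ R := by positivity
  have hR1 : (1 : ℝ) ≤ R := by exact_mod_cast hR
  have hlog : 0 ≤ Real.log (d : ℝ) := Real.log_natCast_nonneg d
  set Λ := 16 * (1 + Real.log (d : ℝ)) with hΛ
  set m : Fin d → ℝ := fun k => ∑ i ∈ B, (u i k) ^ 2 with hm
  have hm0 : ∀ k, 0 ≤ m k := fun k => Finset.sum_nonneg fun _ _ => sq_nonneg _
  set u' := zer (1 / 3000) a j m u with hu'def
  set hv := hh (1 / 3000) a j m B u with hvdef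
  have hv0 : ∀ k, 0 ≤ hv k := fun k => hh_nonneg k
  have hu' : ∀ i ∈ B, ∑ k, (u' i k) ^ 2 ≤ 1 := fun i hi =>
    (Finset.sum_le_sum fun k _ => zer_sq_le i k).trans (h.unorm i hi)
  have hnd : ∀ k, j < lv 0 (a k) → ∀ i, u' i k = u i k := fun k hk i => zer_nondeep i k hk
  have hE' : ECond a j B u' := by
    intro k l hk hl
    have := h.E k l hk hl
    simp only [hnd k hk, hnd l hl]
    exact this
  have hmu : ∀ k, ∑ i ∈ B, (u' i k) ^ 2 ≤ m k := fun k =>
    Finset.sum_le_sum fun i _ => zer_sq_le i k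
  have hdeep : ∀ k, lv 0 (a k) ≤ j → ∀ i ∈ B, (u' i k) ^ 2 ≤ 1 / 3000 * m k :=
    fun k hk i _ => zer_deep (by norm_num) hm0 i k hk
  set Q' : Fin d → ℝ := fun k => P k + ∑ i ∈ B, u' i k with hQ'
  have hQ'nd : ∀ k, j < lv 0 (a k) → Q' k = P k + ∑ i ∈ B, u i k := by
    intro k hk
    simp only [hQ', hnd k hk]
  set G : Fin d → ℝ := fun k => P k + Q' k with hGdef
  have hG : ∀ k, j < lv R (a k) → |G k| ≤ 8 * d := by
    intro k hk
    have h1 := endpoint_le hd h.YL0 h.preL k hk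
    have h2 := endpoint_le hd h.YR0 h.preR k hk
    have h3 : G k = P k + (P k + ∑ i ∈ B, u i k) := by
      simp only [hGdef]
      rw [hQ'nd k (live_nondeep hk)]
    rw [h3]
    refine (abs_add_le _ _).trans ?_
    linarith
  have hx1 : 8 * (d : ℝ) ^ 2 / 2 ^ R ≤ 1 / 100 := by
    rw [div_le_iff₀ h2R]; nlinarith
  have hx : ∀ i ∈ B, |xx R a j G u' i| ≤ 1 := fun i hi =>
    (xx_le hu' hG hi).trans (hx1.trans (by norm_num))
  obtain ⟨ε, hε, e0, e1, e2, e3, e4⟩ := block_balance hR a j (σ := 1 / 3000) (by norm_num) B u' m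
    hu' hdeep hmu (xx R a j G u') hx
  set x := xx R a j G u' with hxdef
  set X : Fin d → ℝ := fun k => ∑ i ∈ B, x i * u' i k with hX
  set e : Fin d → ℝ := fun k => er B ε x (fun i => u' i k) with he
  set D' : Fin d → ℝ := fun k =>
    if lv R (a k) ≤ j then D k + (2 * hv k + |X k| / 2 + |e k| / 2) else 0 with hD'
  set τ' : Fin d → ℝ := fun k => τ k + hv k with hτ'
  set mid : Fin d → ℝ := fun k => (G k + X k + e k) / 2 with hmid
  set B1 := B.filter (fun i => ε i = 1) with hB1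
  set B2 := B.filter (fun i => ¬ ε i = 1) with hB2
  have hs1 := fun f => (sum_child hε x hB1 hB2 f).1
  have hs2 := fun f => (sum_child hε x hB1 hB2 f).2
  have hmid1 : ∀ k, P k + ∑ i ∈ B1, u' i k = mid k := by
    intro k
    rw [hs1]
    simp only [hmid, hGdef, hQ', hX, he]
    ring
  have hmid2 : ∀ k, mid k + ∑ i ∈ B2, u' i k = Q' k := by
    intro k
    rw [hs2]
    simp only [hmid, hGdef, hQ', hX, he]
    ring
  -- corrections
  have hsqrt : 160 * (d : ℝ) ^ 3 / √(2 ^ R) ≤ 1 / 10 := by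
    have h1 : 1600 * (d : ℝ) ^ 3 ≤ √(2 ^ R) := by
      apply Real.le_sqrt_of_sq_le
      nlinarith
    rw [div_le_iff₀ (Real.sqrt_pos.mpr h2R)]
    linarith
  have hlive : ∀ k, j < lv R (a k) → (G k + X k) ^ 2 ≤ 1 / 100 := by
    intro k hk
    have h1 := corr_le hE' hG k (live_nondeep hk)
    rw [if_pos hk] at h1
    have h2 : |G k + X k| ≤ 1 / 10 := h1.trans hsqrt
    rw [← sq_abs]
    nlinarith [abs_nonneg (G k + X k)]
  have hX0 : ∀ k, lv R (a k) ≤ j → j < lv 0 (a k) → (X k) ^ 2 ≤ 1 / 100 := by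
    intro k hk hk2
    have h1 := corr_le hE' hG k hk2
    rw [if_neg (not_lt.mpr hk), zero_add] at h1
    have h2 : |X k| ≤ 1 / 10 := h1.trans hsqrt
    rw [← sq_abs]
    nlinarith [abs_nonneg (X k)]
  have hX1 : ∀ k, lv 0 (a k) ≤ j → (X k) ^ 2 ≤ m k := by
    intro k hk
    refine (xx_deep hE' hG k).trans ?_
    have h1 : 1344 * (d : ℝ) ^ 5 / 2 ^ R ≤ 1 := by
      rw [div_le_one h2R]; nlinarith
    have h2 : 0 ≤ ∑ i ∈ B, (u' i k) ^ 2 := Finset.sum_nonneg fun _ _ => sq_nonneg _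
    have h3 := hmu k
    nlinarith
  -- cost
  set Sd := ∑ k with lv 0 (a k) ≤ j, sw R (lv 0 (a k)) j * m k with hSd
  set St := ∑ k with lv R (a k) ≤ j ∧ j < lv 0 (a k), sw R (lv 0 (a k)) j * m k with hSt
  have hcost := cost_bound (j := j) hR hm0 h.Dsum (fun k hk => hh_nondeep k hk)
    (fun k => by
      have := hh_sq_le (σ := 1 / 3000) (a := a) (j := j) (by norm_num)
        (fun k => (rfl : m k = ∑ i ∈ B, (u i k) ^ 2)) k
      rw [← hvdef] at this
      linarith) hX0 hX1 e0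
  have hSd0 : 0 ≤ Sd := Finset.sum_nonneg fun k _ => mul_nonneg (sw_pos hR _ _).le (hm0 k)
  -- mass
  have hmass : ∀ B', (∃ s : ℝ, |s| = 1 ∧ ∀ f : ι → ℝ, ∑ i ∈ B', f i =
      (∑ i ∈ B, f i + s * (er B ε x f + ∑ i ∈ B, x i * f i)) / 2) →
      SS R a j (j + 1) B' u' ≤ St + 67 / 100 * Sd + 3 * R * nc R a j := by
    rintro B' ⟨s, hs, hB'⟩
    exact mass_child hR hd1 hK hu' h.E (fun k => rfl) hmu hG e1 e2 s hs hB'
  -- budget
  have hSS : SS R a j j B u = St + Sd := by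
    unfold SS
    rw [split_nonlive]
  have hbud := h.budget
  rw [hSS] at hbud
  have hΔ : (Nc R a j : ℝ) ≤ Nc R a (j + 1) := by
    have := Nc_sub R a (Nat.le_succ j)
    simp only [Nat.succ_eq_add_one] at this
    have h2 : (0 : ℝ) ≤ ((Finset.univ.filter (fun k => j < lv R (a k) ∧
      lv R (a k) ≤ j + 1)).card : ℝ) := by positivity
    linarith
  have hbudget : ∀ B', SS R a j (j + 1) B' u' ≤ St + 67 / 100 * Sd + 3 * R * nc R a j →
      (s + 36024 * Sd + 24 * R * nc R a j) + 120000 * SS R a j (j + 1) B' u' +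
        240000 * R * (Nc R a (j + 1) - Nc R a j) ≤
      400000 * R * (∑ i ∈ Finset.range (j + 1), (nc R a i : ℝ) + Nc R a (j + 1)) := by
    intro B' hB'
    rw [Finset.sum_range_succ]
    exact budget_arith (by positivity) (by positivity) hbud hB' hΔ hSd0
  have hDsum : ∑ k with lv R (a k) ≤ j, (D' k) ^ 2 / cw R (lv R (a k)) (lv 0 (a k)) (j + 1) ≤
      s + 36024 * Sd + 24 * R * nc R a j := by
    refine le_trans (le_of_eq ?_) hcost
    refine Finset.sum_congr rfl fun k hk => ?_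
    simp only [hD', (Finset.mem_filter.mp hk).2, if_true]
    rfl
  -- positions
  have hτ0 : ∀ k, 0 ≤ τ' k := fun k => add_nonneg (h.tau0 k) (hv0 k)
  have hD0 : ∀ k, 0 ≤ D' k := by
    intro k
    simp only [hD']
    split_ifs
    · have := h.D0 k; have := hv0 k; have := abs_nonneg (X k); have := abs_nonneg (e k)
      linarith
    · exact le_rfl
  have hτlive : ∀ k, j < lv R (a k) → τ' k = 0 := by
    intro k hk
    simp only [hτ']
    rw [h.taulive k hk, hvdef, hh_nondeep k (live_nondeep hk)]; simp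
  have hDlive : ∀ k, j < lv R (a k) → D' k = 0 := by
    intro k hk
    simp only [hD']
    rw [if_neg (not_le.mpr hk)]
  have hQdiff : ∀ k, |Q' k| ≤ |P k + ∑ i ∈ B, u i k| + hv k := by
    intro k
    have h1 : Q' k = (P k + ∑ i ∈ B, u i k) - ∑ i ∈ B, (u i k - u' i k) := by
      simp only [hQ', Finset.sum_sub_distrib]; ring
    have h2 : |∑ i ∈ B, (u i k - u' i k)| ≤ hv k := Finset.abs_sum_le_sum_abs _ _
    rw [h1]
    refine (abs_sub _ _).trans ?_
    linarith
  have posP : PosC R a j P τ' ζ D' := by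
    intro k hk
    have h1 := h.posL k hk
    have := hv0 k; have := abs_nonneg (X k); have := abs_nonneg (e k)
    simp only [hτ', hD', hk, if_true]
    linarith
  have posQ : PosC R a j Q' τ' ζ D' := by
    intro k hk
    have h1 := h.posR k hk
    have h2 := hQdiff k
    have := hv0 k; have := abs_nonneg (X k); have := abs_nonneg (e k)
    simp only [hτ', hD', hk, if_true]
    simp only at h1
    linarith
  have posM : PosC R a j mid τ' ζ D' := by
    intro k hk
    have h0 := h.posL k hk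
    have h1 := h.posR k hk
    have h2 := hQdiff k
    have := hv0 k
    have h3 : |mid k| ≤ (|P k| + |Q' k| + |X k| + |e k|) / 2 := by
      simp only [hmid, hGdef]
      rw [abs_div, abs_two]
      apply div_le_div_of_nonneg_right _ (by norm_num)
      have t1 := abs_add_le (P k + Q' k + X k) (e k)
      have t2 := abs_add_le (P k + Q' k) (X k)
      have t3 := abs_add_le (P k) (Q' k)
      linarith
    simp only [hτ', hD', hk, if_true]
    simp only at h1
    linarith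
  have hYL : YL ≤ Λ * Nc R a j := by
    have := h.preL j le_rfl
    have h0 : 0 ≤ ∑ k with j < lv R (a k) ∧ lv R (a k) ≤ j, (P k) ^ 2 :=
      Finset.sum_nonneg fun _ _ => sq_nonneg _
    linarith
  have hYR : YR ≤ Λ * Nc R a j := by
    have := h.preR j le_rfl
    have h0 : 0 ≤ ∑ k with j < lv R (a k) ∧ lv R (a k) ≤ j, (P k + ∑ i ∈ B, u i k) ^ 2 :=
      Finset.sum_nonneg fun _ _ => sq_nonneg _
    linarith
  have preM : ∀ Y, Y ≤ Λ * Nc R a j → PreC R a Λ j mid Y := fun Y hY =>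
    pre_mid (GX := fun k => G k + X k) (e := e) (fun k => rfl) hlive e4 hY
  have preQ : PreC R a Λ j Q' YR := by
    intro m' hm'
    have h1 := h.preR m' hm'
    refine le_trans (le_of_eq ?_) h1
    congr 1
    refine Finset.sum_congr rfl fun k hk => ?_
    have hk' := (Finset.mem_filter.mp hk).2
    rw [hQ'nd k (live_nondeep hk'.1)]
  -- children
  have hsub1 : B1 ⊆ B := Finset.filter_subset _ _
  have hsub2 : B2 ⊆ B := Finset.filter_subset _ _
  have pre1 : Pre R a Λ j B1 u' P τ' ζ D' YL YR (s + 36024 * Sd + 24 * R * nc R a j) :=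
    { unorm := fun i hi => hu' i (hsub1 hi)
      E := child_E hK (by norm_num) hs1 hu' hE' hG e3
      tau0 := hτ0
      D0 := hD0
      taulive := hτlive
      posL := posP
      posR := by
        have : (fun k => P k + ∑ i ∈ B1, u' i k) = mid := funext hmid1
        rw [this]; exact posM
      YL0 := h.YL0
      YR0 := h.YR0
      preL := h.preL
      preR := by
        have : (fun k => P k + ∑ i ∈ B1, u' i k) = mid := funext hmid1
        rw [this]; exact preM YR hYR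
      zetaY := h.zetaY
      Dsum := hDsum
      budget := hbudget B1 (hmass B1 ⟨1, by norm_num, hs1⟩) }
  have pre2 : Pre R a Λ j B2 u' mid τ' ζ D' YL YR (s + 36024 * Sd + 24 * R * nc R a j) :=
    { unorm := fun i hi => hu' i (hsub2 hi)
      E := child_E hK (by norm_num) hs2 hu' hE' hG e3
      tau0 := hτ0
      D0 := hD0
      taulive := hτlive
      posL := posM
      posR := by
        have : (fun k => mid k + ∑ i ∈ B2, u' i k) = Q' := funext hmid2
        rw [this]; exact posQ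
      YL0 := h.YL0
      YR0 := h.YR0
      preL := preM YL hYL
      preR := by
        have : (fun k => mid k + ∑ i ∈ B2, u' i k) = Q' := funext hmid2
        rw [this]; exact preQ
      zetaY := h.zetaY
      Dsum := hDsum
      budget := hbudget B2 (hmass B2 ⟨-1, by norm_num, hs2⟩) }
  have good1 : Good M2 B1 u' P τ' := IH _ _ _ _ _ _ _ _ _ (leave hR hK pre1 hDlive)
  have good2 : Good M2 B2 u' mid τ' := IH _ _ _ _ _ _ _ _ _ (leave hR hK pre2 hDlive)
  have hgood : Good M2 B u' P τ' := by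
    apply good_split (B₁ := B1) (B₂ := B2) (Finset.filter_union_filter_not_eq _ _)
      (Finset.disjoint_filter_filter_not _ _ _) good1
    have : (fun k => P k + ∑ i ∈ B1, u' i k) = mid := funext hmid1
    rw [this]; exact good2
  exact good_modify h.tau0 (fun k => le_rfl) hgood

end Step

end Vale.Agent.P262
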