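import Vale.Agent.P262.Inv

/-!
# Numeric estimates for one step
-/

set_option linter.unusedSectionVars false
set_option linter.unusedVariables false

open Finset

namespace Vale.Agent.P262

section Zer

variable {ι : Type*} [Fintype ι] [DecidableEq ι] {d : ℕ}

/-- remove the coordinates in which a vector is heavy -/
noncomputable def zer (σ : ℝ) (a : Fin d → ℝ) (j : ℕ) (m : Fin d → ℝ) (u : ι → Fin d → ℝ) :
    ι → Fin d → ℝ :=
  fun i k => if lv 0 (a k) ≤ j ∧ σ * m k < (u i k) ^ 2 then 0 else u i k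

variable {σ : ℝ} {a : Fin d → ℝ} {j : ℕ} {m : Fin d → ℝ} {u : ι → Fin d → ℝ} {B : Finset ι}

lemma zer_sq_le (i : ι) (k : Fin d) : (zer σ a j m u i k) ^ 2 ≤ (u i k) ^ 2 := by
  unfold zer
  split_ifs
  · simpa using sq_nonneg (u i k)
  · exact le_rfl

lemma zer_deep (hσ : 0 < σ) (hm : ∀ k, 0 ≤ m k) (i : ι) (k : Fin d) (hk : lv 0 (a k) ≤ j) :
    (zer σ a j m u i k) ^ 2 ≤ σ * m k := by
  unfold zer
  split_ifs with h
  · simpa using mul_nonneg hσ.le (hm k)
  · by_contra hcon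
    push Not at hcon
    exact h ⟨hk, hcon⟩

lemma zer_nondeep (i : ι) (k : Fin d) (hk : j < lv 0 (a k)) : zer σ a j m u i k = u i k := by
  unfold zer
  rw [if_neg]
  rintro ⟨h, -⟩
  omega

/-- total variation of the removed coordinates -/
noncomputable def hh (σ : ℝ) (a : Fin d → ℝ) (j : ℕ) (m : Fin d → ℝ) (B : Finset ι)
    (u : ι → Fin d → ℝ) (k : Fin d) : ℝ := ∑ i ∈ B, |u i k - zer σ a j m u i k|

lemma hh_nonneg (k : Fin d) : 0 ≤ hh σ a j m B u k := Finset.sum_nonneg fun _ _ => abs_nonneg _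

lemma hh_nondeep (k : Fin d) (hk : j < lv 0 (a k)) : hh σ a j m B u k = 0 := by
  unfold hh
  refine Finset.sum_eq_zero fun i _ => ?_
  rw [zer_nondeep i k hk]; simp

lemma hh_sq_le (hσ : 0 < σ) (hm : ∀ k, m k = ∑ i ∈ B, (u i k) ^ 2) (k : Fin d) :
    (hh σ a j m B u k) ^ 2 ≤ m k / σ := by
  have hmk : 0 ≤ m k := by rw [hm]; exact Finset.sum_nonneg fun _ _ => sq_nonneg _
  have h1 : hh σ a j m B u k * √(σ * m k) ≤ m k := by
    unfold hh
    rw [Finset.sum_mul]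
    conv_rhs => rw [hm k]
    refine Finset.sum_le_sum fun i _ => ?_
    unfold zer
    split_ifs with h
    · rw [sub_zero, ← sq_abs]
      have h2 : √(σ * m k) ≤ |u i k| := by
        apply Real.sqrt_le_iff.mpr
        exact ⟨abs_nonneg _, by rw [sq_abs]; exact h.2.le⟩
      nlinarith [abs_nonneg (u i k)]
    · rw [sub_self, abs_zero, zero_mul]; exact sq_nonneg _
  rcases eq_or_lt_of_le hmk with h0 | h0
  · -- all coordinates vanish
    have h2 : ∀ i ∈ B, u i k = 0 := by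
      intro i hi
      have h3 : ∑ i ∈ B, (u i k) ^ 2 = 0 := by rw [← hm k]; exact h0.symm
      have := (Finset.sum_eq_zero_iff_of_nonneg (fun i _ => sq_nonneg (u i k))).mp h3 i hi
      exact pow_eq_zero_iff (by norm_num) |>.mp this
    have h3 : hh σ a j m B u k = 0 := by
      unfold hh
      refine Finset.sum_eq_zero fun i hi => ?_
      unfold zer
      rw [h2 i hi]; simp
    rw [h3, ← h0]; simp
  · have h2 : (hh σ a j m B u k * √(σ * m k)) ^ 2 ≤ (m k) ^ 2 :=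
      pow_le_pow_left₀ (mul_nonneg (hh_nonneg k) (Real.sqrt_nonneg _)) h1 2
    rw [mul_pow, Real.sq_sqrt (mul_nonneg hσ.le hmk)] at h2
    rw [le_div_iff₀ hσ]
    have h3 : (hh σ a j m B u k) ^ 2 * σ * m k ≤ m k * m k := by nlinarith
    exact le_of_mul_le_mul_right h3 h0

end Zer

section Numeric

variable {d : ℕ} {R : ℕ} {a : Fin d → ℝ} {j : ℕ}

lemma titu {x y p q q' κ : ℝ} (hp : 0 < p) (hκ : 0 < κ) (hq : p + 1 / κ ≤ q') :
    (x + y) ^ 2 / q' ≤ x ^ 2 / p + κ * y ^ 2 := by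
  have h1 : 0 < 1 / κ := by positivity
  have hq' : 0 < q' := by linarith
  have h2 : (x + y) ^ 2 / q' ≤ (x + y) ^ 2 / (p + 1 / κ) :=
    div_le_div_of_nonneg_left (sq_nonneg _) (by linarith) hq
  refine h2.trans ?_
  rw [div_le_iff₀ (by linarith)]
  have h3 : (x ^ 2 / p + κ * y ^ 2) * (p + 1 / κ) - (x + y) ^ 2 =
      (x - κ * p * y) ^ 2 / (κ * p) := by
    field_simp
    ring
  have h4 : 0 ≤ (x - κ * p * y) ^ 2 / (κ * p) := by positivity
  linarith

lemma split_nonlive (f : Fin d → ℝ) :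
    ∑ k with lv R (a k) ≤ j, f k =
      ∑ k with lv R (a k) ≤ j ∧ j < lv 0 (a k), f k + ∑ k with lv 0 (a k) ≤ j, f k := by
  rw [Finset.sum_filter, Finset.sum_filter, Finset.sum_filter, ← Finset.sum_add_distrib]
  refine Finset.sum_congr rfl fun k _ => ?_
  have h0 := lv_le_lv_zero R (a k)
  by_cases h1 : lv 0 (a k) ≤ j
  · have h2 : lv R (a k) ≤ j := by omega
    have h3 : ¬ (lv R (a k) ≤ j ∧ j < lv 0 (a k)) := by omega
    rw [if_pos h2, if_neg h3, if_pos h1]; simp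
  · by_cases h2 : lv R (a k) ≤ j
    · have h3 : lv R (a k) ≤ j ∧ j < lv 0 (a k) := by omega
      rw [if_pos h2, if_pos h3, if_neg h1]; simp
    · have h3 : ¬ (lv R (a k) ≤ j ∧ j < lv 0 (a k)) := by omega
      rw [if_neg h2, if_neg h3, if_neg h1]; simp

/-- cost of the displacement -/
theorem cost_bound (hR : 1 ≤ R) {m D h X e : Fin d → ℝ} {s : ℝ}
    (hm : ∀ k, 0 ≤ m k)
    (hD : ∑ k with lv R (a k) ≤ j, (D k) ^ 2 / cw R (lv R (a k)) (lv 0 (a k)) j ≤ s)
    (hh0 : ∀ k, j < lv 0 (a k) → h k = 0)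
    (hh1 : ∀ k, (h k) ^ 2 ≤ 3000 * m k)
    (hX0 : ∀ k, lv R (a k) ≤ j → j < lv 0 (a k) → (X k) ^ 2 ≤ 1 / 100)
    (hX1 : ∀ k, lv 0 (a k) ≤ j → (X k) ^ 2 ≤ m k)
    (he : ∑ k with lv R (a k) ≤ j, kw R (lv 0 (a k)) j * (e k) ^ 2 ≤
      30 * ∑ k with lv R (a k) ≤ j, kw R (lv 0 (a k)) j * min 1 (m k)) :
    ∑ k with lv R (a k) ≤ j, (D k + (2 * h k + |X k| / 2 + |e k| / 2)) ^ 2 /
      cw R (lv R (a k)) (lv 0 (a k)) (j + 1) ≤
      s + 36024 * ∑ k with lv 0 (a k) ≤ j, sw R (lv 0 (a k)) j * m k + 24 * R * nc R a j := by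
  have hR0 : (0 : ℝ) ≤ R := by positivity
  have h1 : ∑ k with lv R (a k) ≤ j, (D k + (2 * h k + |X k| / 2 + |e k| / 2)) ^ 2 /
      cw R (lv R (a k)) (lv 0 (a k)) (j + 1) ≤
      ∑ k with lv R (a k) ≤ j, ((D k) ^ 2 / cw R (lv R (a k)) (lv 0 (a k)) j +
        kw R (lv 0 (a k)) j * (2 * h k + |X k| / 2 + |e k| / 2) ^ 2) := by
    refine Finset.sum_le_sum fun k hk => ?_
    have hk' := (Finset.mem_filter.mp hk).2
    have hb := cw_pos_bounds hR hk' (lv_zero_le R (a k))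
    exact titu (q := 0) (by linarith [hb.1]) (kw_pos hR _ _)
      (cw_succ hR hk' (lv_zero_le R (a k)))
  have h2 : ∀ k, (2 * h k + |X k| / 2 + |e k| / 2) ^ 2 ≤
      12 * (h k) ^ 2 + 3 / 4 * (X k) ^ 2 + 3 / 4 * (e k) ^ 2 := by
    intro k
    rw [← sq_abs (X k), ← sq_abs (e k)]
    nlinarith [sq_nonneg (2 * h k - |X k| / 2), sq_nonneg (2 * h k - |e k| / 2),
      sq_nonneg (|X k| / 2 - |e k| / 2)]
  have h3 : ∑ k with lv R (a k) ≤ j, kw R (lv 0 (a k)) j *
      (2 * h k + |X k| / 2 + |e k| / 2) ^ 2 ≤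
      12 * ∑ k with lv R (a k) ≤ j, kw R (lv 0 (a k)) j * (h k) ^ 2 +
      3 / 4 * ∑ k with lv R (a k) ≤ j, kw R (lv 0 (a k)) j * (X k) ^ 2 +
      3 / 4 * ∑ k with lv R (a k) ≤ j, kw R (lv 0 (a k)) j * (e k) ^ 2 := by
    rw [Finset.mul_sum, Finset.mul_sum, Finset.mul_sum, ← Finset.sum_add_distrib,
      ← Finset.sum_add_distrib]
    refine Finset.sum_le_sum fun k _ => ?_
    have := mul_le_mul_of_nonneg_left (h2 k) (kw_pos hR (lv 0 (a k)) j).le
    linarith
  set Sd := ∑ k with lv 0 (a k) ≤ j, sw R (lv 0 (a k)) j * m k with hSd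
  have hkd : ∀ f : Fin d → ℝ, ∑ k with lv 0 (a k) ≤ j, kw R (lv 0 (a k)) j * f k =
      ∑ k with lv 0 (a k) ≤ j, sw R (lv 0 (a k)) j * f k := by
    intro f
    refine Finset.sum_congr rfl fun k hk => ?_
    rw [kw_deep (Finset.mem_filter.mp hk).2]
  have hSd0 : 0 ≤ Sd := Finset.sum_nonneg fun k _ => mul_nonneg (sw_pos hR _ _).le (hm k)
  have h4 : ∑ k with lv R (a k) ≤ j, kw R (lv 0 (a k)) j * (h k) ^ 2 ≤ 3000 * Sd := by
    rw [split_nonlive, Finset.sum_eq_zero (s := Finset.univ.filter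
      (fun k => lv R (a k) ≤ j ∧ j < lv 0 (a k))), zero_add, hkd, hSd, Finset.mul_sum]
    · refine Finset.sum_le_sum fun k _ => ?_
      have := mul_le_mul_of_nonneg_left (hh1 k) (sw_pos hR (lv 0 (a k)) j).le
      linarith
    · intro k hk
      rw [hh0 k (Finset.mem_filter.mp hk).2.2]; simp
  have h5 : ∑ k with lv R (a k) ≤ j, kw R (lv 0 (a k)) j * (X k) ^ 2 ≤
      R * nc R a j / 100 + Sd := by
    rw [split_nonlive]
    apply add_le_add
    · calc ∑ k with lv R (a k) ≤ j ∧ j < lv 0 (a k), kw R (lv 0 (a k)) j * (X k) ^ 2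
          ≤ ∑ k with lv R (a k) ≤ j ∧ j < lv 0 (a k), (R / 100 : ℝ) := by
            refine Finset.sum_le_sum fun k hk => ?_
            have hk' := (Finset.mem_filter.mp hk).2
            rw [kw_trans hk'.2]
            have := mul_le_mul_of_nonneg_left (hX0 k hk'.1 hk'.2) hR0
            linarith
        _ = R * nc R a j / 100 := by
            rw [Finset.sum_const, nsmul_eq_mul, nc]; ring
    · rw [hkd, hSd]
      refine Finset.sum_le_sum fun k hk => ?_
      exact mul_le_mul_of_nonneg_left (hX1 k (Finset.mem_filter.mp hk).2) (sw_pos hR _ _).le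
  have h6 : ∑ k with lv R (a k) ≤ j, kw R (lv 0 (a k)) j * min 1 (m k) ≤ R * nc R a j + Sd := by
    rw [split_nonlive]
    apply add_le_add
    · calc ∑ k with lv R (a k) ≤ j ∧ j < lv 0 (a k), kw R (lv 0 (a k)) j * min 1 (m k)
          ≤ ∑ k with lv R (a k) ≤ j ∧ j < lv 0 (a k), (R : ℝ) := by
            refine Finset.sum_le_sum fun k hk => ?_
            have hk' := (Finset.mem_filter.mp hk).2
            rw [kw_trans hk'.2]
            have : min 1 (m k) ≤ 1 := min_le_left _ _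
            nlinarith
        _ = R * nc R a j := by
            rw [Finset.sum_const, nsmul_eq_mul, nc]; ring
    · rw [hkd, hSd]
      refine Finset.sum_le_sum fun k hk => ?_
      exact mul_le_mul_of_nonneg_left (min_le_right _ _) (sw_pos hR _ _).le
  rw [Finset.sum_add_distrib] at h1
  have hnR : (0 : ℝ) ≤ R * nc R a j := by positivity
  nlinarith

end Numeric

end Vale.Agent.P262
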