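import Vale.Agent.P262.StepA

/-!
# Mass and covariance estimates for one step
-/

set_option linter.unusedSectionVars false
set_option linter.unusedVariables false

open Finset

namespace Vale.Agent.P262

section Numeric

variable {ι : Type*} [Fintype ι] [DecidableEq ι] {d : ℕ} {R : ℕ} {a : Fin d → ℝ} {j : ℕ}

theorem mass_bound (hR : 1 ≤ R) {m m' er2 xt : Fin d → ℝ} (hm : ∀ k, 0 ≤ m k)
    (hm' : ∀ k, m' k ≤ (m k + |er2 k| + |xt k|) / 2)
    (ha : ∑ k with lv R (a k) ≤ j ∧ j < lv 0 (a k), (er2 k) ^ 2 ≤ 30 * nc R a j)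
    (hb : ∑ k with lv 0 (a k) ≤ j, kw R (lv 0 (a k)) j * ((er2 k) ^ 2 / m k) ≤
      1 / 100 * ∑ k with lv 0 (a k) ≤ j, kw R (lv 0 (a k)) j * m k)
    (hb0 : ∀ k, m k = 0 → er2 k = 0)
    (hc : ∀ k, lv R (a k) ≤ j → j < lv 0 (a k) → sw R (lv 0 (a k)) j * |xt k| ≤ R / 10)
    (hd : ∀ k, lv 0 (a k) ≤ j → |xt k| ≤ m k / 100) :
    ∑ k with lv R (a k) ≤ j, sw R (lv 0 (a k)) (j + 1) * m' k ≤
      ∑ k with lv R (a k) ≤ j ∧ j < lv 0 (a k), sw R (lv 0 (a k)) j * m k +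
      67 / 100 * ∑ k with lv 0 (a k) ≤ j, sw R (lv 0 (a k)) j * m k + 3 * R * nc R a j := by
  have hR0 : (0 : ℝ) ≤ R := by positivity
  rw [split_nonlive]
  have hn0 : (0 : ℝ) ≤ nc R a j := by positivity
  have h1 : ∑ k with lv R (a k) ≤ j ∧ j < lv 0 (a k), sw R (lv 0 (a k)) (j + 1) * m' k ≤
      ∑ k with lv R (a k) ≤ j ∧ j < lv 0 (a k), sw R (lv 0 (a k)) j * m k +
        3 * R * nc R a j := by
    have hs : (∑ k with lv R (a k) ≤ j ∧ j < lv 0 (a k), |er2 k|) ^ 2 ≤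
        (11 / 2 * (nc R a j : ℝ)) ^ 2 := by
      have h2 : (∑ k with lv R (a k) ≤ j ∧ j < lv 0 (a k), |er2 k|) ^ 2 ≤
          ((Finset.univ.filter (fun k => lv R (a k) ≤ j ∧ j < lv 0 (a k))).card : ℝ) *
          ∑ k with lv R (a k) ≤ j ∧ j < lv 0 (a k), |er2 k| ^ 2 := sq_sum_le_card_mul_sum_sq
      simp only [sq_abs] at h2
      have h3 : ((Finset.univ.filter (fun k => lv R (a k) ≤ j ∧ j < lv 0 (a k))).card : ℝ) =
        nc R a j := rfl
      rw [h3] at h2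
      nlinarith
    have hs' : ∑ k with lv R (a k) ≤ j ∧ j < lv 0 (a k), |er2 k| ≤ 11 / 2 * (nc R a j : ℝ) :=
      abs_le_of_sq_le_sq' hs (by positivity) |>.2
    have h4 : ∑ k with lv R (a k) ≤ j ∧ j < lv 0 (a k), sw R (lv 0 (a k)) (j + 1) * m' k ≤
        ∑ k with lv R (a k) ≤ j ∧ j < lv 0 (a k),
          (sw R (lv 0 (a k)) j * m k + R / 2 * |er2 k| + R / 10) := by
      refine Finset.sum_le_sum fun k hk => ?_
      have hk' := (Finset.mem_filter.mp hk).2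
      rw [sw_succ_trans hk'.2]
      have h5 := hc k hk'.1 hk'.2
      have h6 := sw_trans_le (R := R) hk'.2
      have h7 := sw_pos hR (lv 0 (a k)) j
      have h8 := hm' k
      have h9 := abs_nonneg (er2 k)
      have h10 : sw R (lv 0 (a k)) j * |er2 k| ≤ R / 2 * |er2 k| :=
        mul_le_mul_of_nonneg_right h6 h9
      have h11 : 2 * sw R (lv 0 (a k)) j * m' k ≤
          2 * sw R (lv 0 (a k)) j * ((m k + |er2 k| + |xt k|) / 2) :=
        mul_le_mul_of_nonneg_left h8 (by linarith)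
      nlinarith
    rw [Finset.sum_add_distrib, Finset.sum_add_distrib, ← Finset.mul_sum] at h4
    have h5 : ∑ k with lv R (a k) ≤ j ∧ j < lv 0 (a k), (R / 10 : ℝ) = R / 10 * nc R a j := by
      rw [Finset.sum_const, nsmul_eq_mul, nc]; ring
    rw [h5] at h4
    have h6 : (R : ℝ) / 2 * ∑ k with lv R (a k) ≤ j ∧ j < lv 0 (a k), |er2 k| ≤
        R / 2 * (11 / 2 * (nc R a j : ℝ)) := mul_le_mul_of_nonneg_left hs' (by linarith)
    have h7 : 0 ≤ (R : ℝ) * nc R a j := mul_nonneg hR0 hn0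
    nlinarith
  have h2 : ∑ k with lv 0 (a k) ≤ j, sw R (lv 0 (a k)) (j + 1) * m' k ≤
      67 / 100 * ∑ k with lv 0 (a k) ≤ j, sw R (lv 0 (a k)) j * m k := by
    set Sd := ∑ k with lv 0 (a k) ≤ j, sw R (lv 0 (a k)) j * m k with hSd
    have hSd0 : 0 ≤ Sd := Finset.sum_nonneg fun k _ => mul_nonneg (sw_pos hR _ _).le (hm k)
    have hkd : ∀ f : Fin d → ℝ, ∑ k with lv 0 (a k) ≤ j, kw R (lv 0 (a k)) j * f k =
        ∑ k with lv 0 (a k) ≤ j, sw R (lv 0 (a k)) j * f k := by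
      intro f
      refine Finset.sum_congr rfl fun k hk => ?_
      rw [kw_deep (Finset.mem_filter.mp hk).2]
    rw [hkd, hkd, ← hSd] at hb
    have hcs : (∑ k with lv 0 (a k) ≤ j, sw R (lv 0 (a k)) j * |er2 k|) ^ 2 ≤
        (∑ k with lv 0 (a k) ≤ j, sw R (lv 0 (a k)) j * m k) *
        ∑ k with lv 0 (a k) ≤ j, sw R (lv 0 (a k)) j * ((er2 k) ^ 2 / m k) := by
      apply Finset.sum_sq_le_sum_mul_sum_of_sq_le_mul
      · intro k _; exact mul_nonneg (sw_pos hR _ _).le (hm k)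
      · intro k _; exact mul_nonneg (sw_pos hR _ _).le (div_nonneg (sq_nonneg _) (hm k))
      · intro k _
        apply le_of_eq
        rw [mul_pow, sq_abs]
        rcases eq_or_ne (m k) 0 with h0 | h0
        · rw [hb0 k h0, h0]; simp
        · field_simp
    have h3 : ∑ k with lv 0 (a k) ≤ j, sw R (lv 0 (a k)) j * |er2 k| ≤ 1 / 10 * Sd := by
      have h4 : (∑ k with lv 0 (a k) ≤ j, sw R (lv 0 (a k)) j * |er2 k|) ^ 2 ≤
          (1 / 10 * Sd) ^ 2 := by
        rw [← hSd] at hcs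
        nlinarith
      exact abs_le_of_sq_le_sq' h4 (by positivity) |>.2
    have h4 : ∑ k with lv 0 (a k) ≤ j, sw R (lv 0 (a k)) (j + 1) * m' k ≤
        ∑ k with lv 0 (a k) ≤ j, (3 / 5 * (101 / 100) * (sw R (lv 0 (a k)) j * m k) +
          3 / 5 * (sw R (lv 0 (a k)) j * |er2 k|)) := by
      refine Finset.sum_le_sum fun k hk => ?_
      have hk' := (Finset.mem_filter.mp hk).2
      rw [sw_succ_deep hk']
      have h7 := sw_pos hR (lv 0 (a k)) j
      have h8 := hm' k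
      have h9 := hd k hk'
      have h11 : 6 / 5 * sw R (lv 0 (a k)) j * m' k ≤
          6 / 5 * sw R (lv 0 (a k)) j * ((m k + |er2 k| + m k / 100) / 2) :=
        mul_le_mul_of_nonneg_left (by linarith) (by linarith)
      nlinarith
    rw [Finset.sum_add_distrib, ← Finset.mul_sum, ← Finset.mul_sum, ← hSd] at h4
    nlinarith
  linarith

/-- covariance condition for a child -/
theorem child_E {B B' : Finset ι} {u : ι → Fin d → ℝ} {ε : ι → ℝ} {G : Fin d → ℝ} {s : ℝ}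
    (hK : 3000000 * (d : ℝ) ^ 6 ≤ 2 ^ R)
    (hs : |s| = 1)
    (hsum : ∀ f : ι → ℝ, ∑ i ∈ B', f i = (∑ i ∈ B, f i +
      s * (er B ε (xx R a j G u) f + ∑ i ∈ B, xx R a j G u i * f i)) / 2)
    (hu : ∀ i ∈ B, ∑ k, (u i k) ^ 2 ≤ 1)
    (hE : ECond a j B u) (hG : ∀ k, j < lv R (a k) → |G k| ≤ 8 * d)
    (her : ∀ k l, (er B ε (xx R a j G u) (fun i => u i k * u i l)) ^ 2 ≤ 30 * (d : ℝ) ^ 2) :
    ECond a (j + 1) B' u := by
  intro k l hk hl
  have hd := dpos_of k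
  have hk0 : j < lv 0 (a k) := by omega
  have hl0 : j < lv 0 (a l) := by omega
  have hE' := hE k l hk0 hl0
  have hxp := xx_pair hu hE hG k l hk0 hl0
  have her' := her k l
  have hhk : a k / 2 ^ (j + 1) = (a k / 2 ^ j) / 2 := by rw [pow_succ]; field_simp
  have hhl : a l / 2 ^ (j + 1) = (a l / 2 ^ j) / 2 := by rw [pow_succ]; field_simp
  have hmk : 1 ≤ a k / 2 ^ (j + 1) := mu_ge_one hk
  have hml : 1 ≤ a l / 2 ^ (j + 1) := mu_ge_one hl
  rw [hhk] at hmk ⊢
  rw [hhl] at hml ⊢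
  rw [hsum]
  set M := min (a k / 2 ^ j) (a l / 2 ^ j) with hM
  have hM2 : min (a k / 2 ^ j / 2) (a l / 2 ^ j / 2) = M / 2 := by
    rw [hM, min_div_div_right (by norm_num)]
  rw [hM2]
  have hM1 : 2 ≤ M := le_min (by linarith) (by linarith)
  set e := er B ε (xx R a j G u) (fun i => u i k * u i l) with he
  set x := ∑ i ∈ B, xx R a j G u i * (u i k * u i l) with hx
  set A := ∑ i ∈ B, u i k * u i l with hA
  have hsqM : √M ^ 2 = M := Real.sq_sqrt (by linarith)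
  have hsM0 := Real.sqrt_nonneg M
  have hsM1 : 1 ≤ √M := by
    rw [Real.one_le_sqrt]; linarith
  have hx1 : |x| ≤ 1 / 10 * √M := by
    apply abs_le_of_sq_le_sq _ (by positivity)
    refine hxp.trans ?_
    rw [mul_pow, hsqM]
    have h2R : (0 : ℝ) < 2 ^ R := by positivity
    have h1 : 1344 * (d : ℝ) ^ 5 / 2 ^ R * (21 * d) ≤ (1 / 10) ^ 2 := by
      rw [div_mul_eq_mul_div, div_le_iff₀ h2R]
      nlinarith
    exact mul_le_mul_of_nonneg_right h1 (by linarith)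
  have he1 : |e| ≤ 11 / 2 * d := by
    apply abs_le_of_sq_le_sq _ (by positivity)
    refine her'.trans ?_
    nlinarith [sq_nonneg (d : ℝ)]
  have ht : 7 / 10 * √M ≤ √(M / 2) := by
    apply Real.le_sqrt_of_sq_le
    rw [mul_pow, hsqM]
    linarith
  have h1 : (A + s * (e + x)) / 2 - (if k = l then a k / 2 ^ j / 2 else 0) =
      ((A - (if k = l then a k / 2 ^ j else 0)) + s * (e + x)) / 2 := by
    split_ifs <;> ring
  rw [h1]
  have h2 : |((A - (if k = l then a k / 2 ^ j else 0)) + s * (e + x)) / 2| ≤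
      (|A - (if k = l then a k / 2 ^ j else 0)| + (|e| + |x|)) / 2 := by
    rw [abs_div, abs_two]
    apply div_le_div_of_nonneg_right _ (by norm_num)
    refine (abs_add_le _ _).trans ?_
    apply add_le_add le_rfl
    rw [abs_mul, hs, one_mul]
    exact abs_add_le _ _
  have h3 : 20 * (d : ℝ) * (7 / 10 * √M) ≤ 20 * d * √(M / 2) :=
    mul_le_mul_of_nonneg_left ht (by positivity)
  have h4 : (d : ℝ) * 1 ≤ d * √M := mul_le_mul_of_nonneg_left hsM1 (by positivity)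
  have h5 : 1 * √M ≤ d * √M := mul_le_mul_of_nonneg_right hd hsM0
  nlinarith

end Numeric

end Vale.Agent.P262
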