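import Vale.Agent.P262.Block

/-!
# The fractional correction and its size
-/

set_option linter.unusedSectionVars false
set_option linter.unusedVariables false

open Finset

namespace Vale.Agent.P262

section X

variable {ι : Type*} [Fintype ι] [DecidableEq ι] {d : ℕ}

/-- correction vector -/
noncomputable def zz (R : ℕ) (a : Fin d → ℝ) (j : ℕ) (G : Fin d → ℝ) (k : Fin d) : ℝ :=
  if j < lv R (a k) then G k / (a k / 2 ^ j) else 0

/-- fractional correction -/
noncomputable def xx (R : ℕ) (a : Fin d → ℝ) (j : ℕ) (G : Fin d → ℝ) (u : ι → Fin d → ℝ)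
    (i : ι) : ℝ := - ∑ k, zz R a j G k * u i k

lemma mu_ge {R : ℕ} {a : ℝ} {j : ℕ} (h : j < lv R a) : (2 : ℝ) ^ R ≤ a / 2 ^ j := by
  rw [le_div_iff₀ (by positivity)]
  exact le_of_lt_lv h

lemma mu_ge_one {a : ℝ} {j : ℕ} (h : j < lv 0 a) : (1 : ℝ) ≤ a / 2 ^ j := by
  have := mu_ge h
  simpa using this

variable {R : ℕ} {a : Fin d → ℝ} {j : ℕ} {G : Fin d → ℝ} {u : ι → Fin d → ℝ} {B : Finset ι}

lemma zz_mul_mu_le (hG : ∀ k, j < lv R (a k) → |G k| ≤ 8 * d) (k : Fin d)
    (hk : j < lv R (a k)) : |zz R a j G k| * (a k / 2 ^ j) ≤ 8 * d := by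
  have hmu := mu_ge hk
  have hpos : (0 : ℝ) < a k / 2 ^ j := lt_of_lt_of_le (by positivity) hmu
  unfold zz
  rw [if_pos hk, abs_div, abs_of_pos hpos, div_mul_cancel₀ _ hpos.ne']
  exact hG k hk

lemma zz_le (hG : ∀ k, j < lv R (a k) → |G k| ≤ 8 * d) (k : Fin d) :
    |zz R a j G k| ≤ 8 * d / 2 ^ R := by
  by_cases hk : j < lv R (a k)
  · have h := zz_mul_mu_le hG k hk
    have hmu := mu_ge hk
    rw [le_div_iff₀ (by positivity)]
    have := abs_nonneg (zz R a j G k)
    nlinarith
  · unfold zz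
    rw [if_neg hk, abs_zero]
    positivity

lemma abs_le_one_of (hu : ∀ i ∈ B, ∑ k, (u i k) ^ 2 ≤ 1) {i : ι} (hi : i ∈ B) (k : Fin d) :
    |u i k| ≤ 1 := by
  have h1 : (u i k) ^ 2 ≤ ∑ k, (u i k) ^ 2 :=
    Finset.single_le_sum (f := fun k => (u i k) ^ 2) (fun _ _ => sq_nonneg _) (Finset.mem_univ k)
  have h2 := hu i hi
  rw [← sq_abs] at h1
  nlinarith [abs_nonneg (u i k)]

lemma xx_le (hu : ∀ i ∈ B, ∑ k, (u i k) ^ 2 ≤ 1) (hG : ∀ k, j < lv R (a k) → |G k| ≤ 8 * d)
    {i : ι} (hi : i ∈ B) : |xx R a j G u i| ≤ 8 * d ^ 2 / 2 ^ R := by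
  unfold xx
  rw [abs_neg]
  calc |∑ k, zz R a j G k * u i k| ≤ ∑ k, |zz R a j G k * u i k| := Finset.abs_sum_le_sum_abs _ _
    _ ≤ ∑ _k : Fin d, (8 * d / 2 ^ R : ℝ) := by
        refine Finset.sum_le_sum fun k _ => ?_
        rw [abs_mul]
        have h1 := zz_le hG k
        have h2 := abs_le_one_of hu hi k
        have := abs_nonneg (zz R a j G k)
        have := abs_nonneg (u i k)
        nlinarith
    _ = 8 * d ^ 2 / 2 ^ R := by
        rw [Finset.sum_const, Finset.card_univ, Fintype.card_fin, nsmul_eq_mul]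
        ring

lemma live_nondeep {k : Fin d} (hk : j < lv R (a k)) : j < lv 0 (a k) :=
  lt_of_lt_of_le hk (lv_le_lv_zero R (a k))

/-- hypothesis on the covariance matrix of the block -/
def ECond (a : Fin d → ℝ) (j : ℕ) (B : Finset ι) (u : ι → Fin d → ℝ) : Prop :=
  ∀ k l, j < lv 0 (a k) → j < lv 0 (a l) →
    |∑ i ∈ B, u i k * u i l - (if k = l then a k / 2 ^ j else 0)| ≤
      20 * d * √(min (a k / 2 ^ j) (a l / 2 ^ j))

lemma dpos_of (k : Fin d) : (1 : ℝ) ≤ d := by
  have : 1 ≤ d := by have := k.2; omega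
  exact_mod_cast this

lemma A_le (hE : ECond a j B u) (k l : Fin d) (hk : j < lv 0 (a k)) (hl : j < lv 0 (a l)) :
    |∑ i ∈ B, u i k * u i l| ≤ 21 * d * (a k / 2 ^ j) := by
  have hd := dpos_of k
  have h := hE k l hk hl
  have hmk := mu_ge_one hk
  set μ := a k / 2 ^ j with hμ
  have h1 : √(min μ (a l / 2 ^ j)) ≤ μ := by
    calc √(min μ (a l / 2 ^ j)) ≤ √μ := Real.sqrt_le_sqrt (min_le_left _ _)
      _ ≤ μ := by
        rw [Real.sqrt_le_left (by linarith)]
        nlinarith
  have h2 : |∑ i ∈ B, u i k * u i l| ≤ |∑ i ∈ B, u i k * u i l - (if k = l then μ else 0)| + μ := by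
    have h3 : |(if k = l then μ else 0 : ℝ)| ≤ μ := by
      split_ifs
      · rw [abs_of_nonneg (by linarith)]
      · simp; linarith
    calc |∑ i ∈ B, u i k * u i l|
        = |(∑ i ∈ B, u i k * u i l - (if k = l then μ else 0)) + (if k = l then μ else 0)| := by
          congr 1; ring
      _ ≤ _ := (abs_add_le _ _).trans (by linarith)
  have h5 : (20 : ℝ) * d * √(min μ (a l / 2 ^ j)) ≤ 20 * d * μ :=
    mul_le_mul_of_nonneg_left h1 (by positivity)
  nlinarith

lemma sum_xx_sq (hE : ECond a j B u) (hG : ∀ k, j < lv R (a k) → |G k| ≤ 8 * d) :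
    ∑ i ∈ B, (xx R a j G u i) ^ 2 ≤ 1344 * d ^ 5 / 2 ^ R := by
  have h1 : ∑ i ∈ B, (xx R a j G u i) ^ 2 =
      ∑ k, ∑ l, zz R a j G k * zz R a j G l * ∑ i ∈ B, u i k * u i l := by
    have : ∀ i, (xx R a j G u i) ^ 2 =
        ∑ k, ∑ l, zz R a j G k * zz R a j G l * (u i k * u i l) := by
      intro i
      unfold xx
      rw [neg_sq, pow_two, Finset.sum_mul_sum]
      refine Finset.sum_congr rfl fun k _ => Finset.sum_congr rfl fun l _ => ?_
      ring
    simp only [this]
    rw [Finset.sum_comm]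
    refine Finset.sum_congr rfl fun k _ => ?_
    rw [Finset.sum_comm]
    refine Finset.sum_congr rfl fun l _ => ?_
    rw [Finset.mul_sum]
  rw [h1]
  calc ∑ k, ∑ l, zz R a j G k * zz R a j G l * ∑ i ∈ B, u i k * u i l
      ≤ ∑ _k : Fin d, ∑ _l : Fin d, (1344 * d ^ 3 / 2 ^ R : ℝ) := by
        refine Finset.sum_le_sum fun k _ => Finset.sum_le_sum fun l _ => ?_
        refine (le_abs_self _).trans ?_
        by_cases hk : j < lv R (a k)
        · by_cases hl : j < lv R (a l)
          · rw [abs_mul, abs_mul]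
            have h2 := A_le hE k l (live_nondeep hk) (live_nondeep hl)
            have h3 := zz_mul_mu_le hG k hk
            have h4 := zz_le hG l
            have hmu := mu_ge hk
            have hpos : (0 : ℝ) < a k / 2 ^ j := lt_of_lt_of_le (by positivity) hmu
            have z1 := abs_nonneg (zz R a j G k)
            have z2 := abs_nonneg (zz R a j G l)
            calc |zz R a j G k| * |zz R a j G l| * |∑ i ∈ B, u i k * u i l|
                ≤ |zz R a j G k| * |zz R a j G l| * (21 * d * (a k / 2 ^ j)) :=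
                  mul_le_mul_of_nonneg_left h2 (by positivity)
              _ = (|zz R a j G k| * (a k / 2 ^ j)) * |zz R a j G l| * (21 * d) := by ring
              _ ≤ (8 * d) * (8 * d / 2 ^ R) * (21 * d) := by
                  apply mul_le_mul_of_nonneg_right _ (by positivity)
                  exact mul_le_mul h3 h4 z2 (by positivity)
              _ = 1344 * d ^ 3 / 2 ^ R := by ring
          · have : zz R a j G l = 0 := by unfold zz; rw [if_neg hl]
            rw [this, mul_zero, zero_mul, abs_zero]; positivity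
        · have : zz R a j G k = 0 := by unfold zz; rw [if_neg hk]
          rw [this, zero_mul, zero_mul, abs_zero]; positivity
    _ = 1344 * d ^ 5 / 2 ^ R := by
        simp only [Finset.sum_const, Finset.card_univ, Fintype.card_fin, nsmul_eq_mul]
        ring

lemma corr_le (hE : ECond a j B u) (hG : ∀ k, j < lv R (a k) → |G k| ≤ 8 * d)
    (k : Fin d) (hk : j < lv 0 (a k)) :
    |(if j < lv R (a k) then G k else 0) + ∑ i ∈ B, xx R a j G u i * u i k| ≤
      160 * d ^ 3 / √(2 ^ R) := by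
  have h1 : ∑ i ∈ B, xx R a j G u i * u i k = - ∑ l, zz R a j G l * ∑ i ∈ B, u i l * u i k := by
    unfold xx
    simp only [neg_mul, Finset.sum_neg_distrib, Finset.sum_mul, Finset.mul_sum]
    rw [Finset.sum_comm]
    congr 1
    refine Finset.sum_congr rfl fun l _ => Finset.sum_congr rfl fun i _ => ?_
    ring
  have h2 : (if j < lv R (a k) then G k else 0) =
      ∑ l, zz R a j G l * (if l = k then a l / 2 ^ j else 0) := by
    rw [Finset.sum_eq_single k]
    · simp only [if_true]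
      unfold zz
      split_ifs with hk'
      · have hmu := mu_ge hk'
        have hpos : (0 : ℝ) < a k / 2 ^ j := lt_of_lt_of_le (by positivity) hmu
        rw [div_mul_cancel₀ _ hpos.ne']
      · simp
    · intro l _ hl
      simp [hl]
    · simp
  rw [h1, h2, ← sub_eq_add_neg, ← Finset.sum_sub_distrib]
  calc |∑ l, (zz R a j G l * (if l = k then a l / 2 ^ j else 0) -
          zz R a j G l * ∑ i ∈ B, u i l * u i k)|
      ≤ ∑ l, |zz R a j G l * (if l = k then a l / 2 ^ j else 0) -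
          zz R a j G l * ∑ i ∈ B, u i l * u i k| := Finset.abs_sum_le_sum_abs _ _
    _ ≤ ∑ _l : Fin d, (160 * d ^ 2 / √(2 ^ R) : ℝ) := by
        refine Finset.sum_le_sum fun l _ => ?_
        rw [← mul_sub, abs_mul, abs_sub_comm]
        by_cases hl : j < lv R (a l)
        · have h3 := hE l k (live_nondeep hl) hk
          have hmu := mu_ge hl
          have h2R : (0 : ℝ) < 2 ^ R := by positivity
          have hpos : (0 : ℝ) < a l / 2 ^ j := lt_of_lt_of_le h2R hmu
          set μ := a l / 2 ^ j with hμ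
          have h4 := zz_mul_mu_le hG l hl
          have h5 : √(min μ (a k / 2 ^ j)) ≤ √μ := Real.sqrt_le_sqrt (min_le_left _ _)
          have h6 : √(2 ^ R : ℝ) ≤ √μ := Real.sqrt_le_sqrt hmu
          have h7 : √μ * √μ = μ := Real.mul_self_sqrt hpos.le
          have h8 : (0 : ℝ) < √(2 ^ R : ℝ) := Real.sqrt_pos.mpr h2R
          rw [le_div_iff₀ h8]
          have z1 := abs_nonneg (zz R a j G l)
          calc |zz R a j G l| * |∑ i ∈ B, u i l * u i k - (if l = k then μ else 0)| * √(2 ^ R)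
              ≤ |zz R a j G l| * (20 * d * √μ) * √μ := by
                apply mul_le_mul _ h6 h8.le (by positivity)
                apply mul_le_mul_of_nonneg_left _ z1
                exact h3.trans (mul_le_mul_of_nonneg_left h5 (by positivity))
            _ = 20 * d * (|zz R a j G l| * (√μ * √μ)) := by ring
            _ = 20 * d * (|zz R a j G l| * μ) := by rw [h7]
            _ ≤ 20 * d * (8 * d) := mul_le_mul_of_nonneg_left h4 (by positivity)
            _ = 160 * d ^ 2 := by ring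
        · have : zz R a j G l = 0 := by unfold zz; rw [if_neg hl]
          rw [this, abs_zero, zero_mul]; positivity
    _ = 160 * d ^ 3 / √(2 ^ R) := by
        rw [Finset.sum_const, Finset.card_univ, Fintype.card_fin, nsmul_eq_mul]
        ring

lemma xx_deep (hE : ECond a j B u) (hG : ∀ k, j < lv R (a k) → |G k| ≤ 8 * d) (k : Fin d) :
    (∑ i ∈ B, xx R a j G u i * u i k) ^ 2 ≤ 1344 * d ^ 5 / 2 ^ R * ∑ i ∈ B, (u i k) ^ 2 := by
  have h1 := Finset.sum_mul_sq_le_sq_mul_sq B (xx R a j G u) (fun i => u i k)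
  refine h1.trans ?_
  exact mul_le_mul_of_nonneg_right (sum_xx_sq hE hG) (Finset.sum_nonneg fun _ _ => sq_nonneg _)

lemma xx_pair (hu : ∀ i ∈ B, ∑ k, (u i k) ^ 2 ≤ 1)
    (hE : ECond a j B u) (hG : ∀ k, j < lv R (a k) → |G k| ≤ 8 * d) (k l : Fin d)
    (hk : j < lv 0 (a k)) (hl : j < lv 0 (a l)) :
    (∑ i ∈ B, xx R a j G u i * (u i k * u i l)) ^ 2 ≤
      1344 * d ^ 5 / 2 ^ R * (21 * d) * min (a k / 2 ^ j) (a l / 2 ^ j) := by
  have h1 := Finset.sum_mul_sq_le_sq_mul_sq B (xx R a j G u) (fun i => u i k * u i l)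
  have h2 := sum_xx_sq hE hG
  have hη : (0 : ℝ) ≤ 1344 * d ^ 5 / 2 ^ R := by positivity
  have h3 : ∑ i ∈ B, (u i k * u i l) ^ 2 ≤ 21 * d * (a k / 2 ^ j) := by
    calc ∑ i ∈ B, (u i k * u i l) ^ 2 ≤ ∑ i ∈ B, u i k * u i k := by
          refine Finset.sum_le_sum fun i hi => ?_
          have := abs_le_one_of hu hi l
          have h5 : (u i l) ^ 2 ≤ 1 := by rw [← sq_abs]; nlinarith [abs_nonneg (u i l)]
          nlinarith [sq_nonneg (u i k)]
      _ ≤ _ := (le_abs_self _).trans (A_le hE k k hk hk)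
  have h4 : ∑ i ∈ B, (u i k * u i l) ^ 2 ≤ 21 * d * (a l / 2 ^ j) := by
    calc ∑ i ∈ B, (u i k * u i l) ^ 2 ≤ ∑ i ∈ B, u i l * u i l := by
          refine Finset.sum_le_sum fun i hi => ?_
          have := abs_le_one_of hu hi k
          have h5 : (u i k) ^ 2 ≤ 1 := by rw [← sq_abs]; nlinarith [abs_nonneg (u i k)]
          nlinarith [sq_nonneg (u i l)]
      _ ≤ _ := (le_abs_self _).trans (A_le hE l l hl hl)
  have h5 : ∑ i ∈ B, (u i k * u i l) ^ 2 ≤ 21 * d * min (a k / 2 ^ j) (a l / 2 ^ j) := by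
    rcases le_total (a k / 2 ^ j) (a l / 2 ^ j) with h | h
    · rw [min_eq_left h]; exact h3
    · rw [min_eq_right h]; exact h4
  calc (∑ i ∈ B, xx R a j G u i * (u i k * u i l)) ^ 2
      ≤ (∑ i ∈ B, (xx R a j G u i) ^ 2) * ∑ i ∈ B, (u i k * u i l) ^ 2 := h1
    _ ≤ (1344 * d ^ 5 / 2 ^ R) * (21 * d * min (a k / 2 ^ j) (a l / 2 ^ j)) :=
        mul_le_mul h2 h5 (Finset.sum_nonneg fun _ _ => sq_nonneg _) hη
    _ = _ := by ring

end X

end Vale.Agent.P262
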